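import Mathlib

namespace Vale.Agent.P060

open Finset

variable {V : Type*} [Fintype V] [DecidableEq V]

def Proper (G : SimpleGraph V) (X : Finset V) (f : V → ℕ) : Prop :=
  ∀ x ∈ X, ∀ y ∈ X, G.Adj x y → f x ≠ f y

noncomputable def chi (G : SimpleGraph V) (X : Finset V) : ℕ :=
  sInf {k : ℕ | ∃ f : V → ℕ, Proper G X f ∧ (X.image f).card ≤ k}

theorem chi_set_nonempty (G : SimpleGraph V) (X : Finset V) :
    {k : ℕ | ∃ f : V → ℕ, Proper G X f ∧ (X.image f).card ≤ k}.Nonempty := by
  refine ⟨X.card, fun v => (Fintype.equivFin V v : ℕ), ?_, card_image_le⟩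
  intro x _ y _ hxy h
  have h' : Fintype.equivFin V x = Fintype.equivFin V y := Fin.ext h
  exact hxy.ne ((Fintype.equivFin V).injective h')

theorem chi_spec (G : SimpleGraph V) (X : Finset V) :
    ∃ f : V → ℕ, Proper G X f ∧ (X.image f).card ≤ chi G X :=
  Nat.sInf_mem (chi_set_nonempty G X)

theorem chi_le {G : SimpleGraph V} {X : Finset V} {f : V → ℕ} (hf : Proper G X f) :
    chi G X ≤ (X.image f).card :=
  Nat.sInf_le ⟨f, hf, le_refl _⟩

theorem Proper.mono {G : SimpleGraph V} {X Y : Finset V} {f : V → ℕ} (h : X ⊆ Y)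
    (hf : Proper G Y f) : Proper G X f :=
  fun x hx y hy => hf x (h hx) y (h hy)

theorem chi_mono {G : SimpleGraph V} {X Y : Finset V} (h : X ⊆ Y) : chi G X ≤ chi G Y := by
  obtain ⟨f, hf, hc⟩ := chi_spec G Y
  exact (chi_le (hf.mono h)).trans ((card_le_card (image_subset_image h)).trans hc)

theorem chi_union_le (G : SimpleGraph V) (X Y : Finset V) :
    chi G (X ∪ Y) ≤ chi G X + chi G Y := by
  obtain ⟨f, hf, hfc⟩ := chi_spec G X
  obtain ⟨g, hg, hgc⟩ := chi_spec G Y
  let F : V → ℕ := fun v => if v ∈ X then 2 * f v else 2 * g v + 1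
  have hF : Proper G (X ∪ Y) F := by
    intro x hx y hy hxy
    show (if x ∈ X then 2 * f x else 2 * g x + 1) ≠ (if y ∈ X then 2 * f y else 2 * g y + 1)
    split_ifs with h1 h2 h2
    · have := hf x h1 y h2 hxy
      omega
    · omega
    · omega
    · have hx' : x ∈ Y := (mem_union.1 hx).resolve_left h1
      have hy' : y ∈ Y := (mem_union.1 hy).resolve_left h2
      have := hg x hx' y hy' hxy
      omega
  refine (chi_le hF).trans ?_
  have hsub : (X ∪ Y).image F ⊆ (X.image f).image (fun n => 2 * n) ∪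
      (Y.image g).image (fun n => 2 * n + 1) := by
    intro n hn
    obtain ⟨v, hv, rfl⟩ := mem_image.1 hn
    by_cases h1 : v ∈ X
    · apply mem_union_left
      rw [mem_image]
      exact ⟨f v, mem_image_of_mem _ h1, by show _ = (if v ∈ X then _ else _); rw [if_pos h1]⟩
    · apply mem_union_right
      rw [mem_image]
      exact ⟨g v, mem_image_of_mem _ ((mem_union.1 hv).resolve_left h1),
        by show _ = (if v ∈ X then _ else _); rw [if_neg h1]⟩
  calc ((X ∪ Y).image F).card ≤ _ := card_le_card hsub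
    _ ≤ _ := card_union_le _ _
    _ ≤ (X.image f).card + (Y.image g).card := add_le_add card_image_le card_image_le
    _ ≤ _ := add_le_add hfc hgc

theorem chi_join {G : SimpleGraph V} {X Y : Finset V} (h : ∀ x ∈ X, ∀ y ∈ Y, G.Adj x y) :
    chi G X + chi G Y ≤ chi G (X ∪ Y) := by
  obtain ⟨f, hf, hfc⟩ := chi_spec G (X ∪ Y)
  have h1 := chi_le (hf.mono (subset_union_left (s₁ := X) (s₂ := Y)))
  have h2 := chi_le (hf.mono (subset_union_right (s₁ := X) (s₂ := Y)))
  have hd : Disjoint (X.image f) (Y.image f) := by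
    rw [disjoint_left]
    intro n hnx hny
    obtain ⟨x, hx, hxn⟩ := mem_image.1 hnx
    obtain ⟨y, hy, hyn⟩ := mem_image.1 hny
    exact hf x (mem_union_left _ hx) y (mem_union_right _ hy) (h x hx y hy) (hxn.trans hyn.symm)
  rw [image_union, card_union_of_disjoint hd] at hfc
  omega

theorem chi_empty (G : SimpleGraph V) : chi G ∅ = 0 := by
  have := chi_le (G := G) (X := ∅) (f := fun _ => 0) (by intro x hx; simp at hx)
  simpa using this

theorem chi_indep {G : SimpleGraph V} {X : Finset V} (h : ∀ x ∈ X, ∀ y ∈ X, ¬ G.Adj x y) :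
    chi G X ≤ 1 := by
  have := chi_le (G := G) (X := X) (f := fun _ => 0) (fun x hx y hy hxy => absurd hxy (h x hx y hy))
  refine this.trans ?_
  calc (X.image (fun _ => 0)).card ≤ ({0} : Finset ℕ).card := card_le_card (by
        intro n hn
        obtain ⟨_, _, rfl⟩ := mem_image.1 hn
        simp)
    _ = 1 := card_singleton _

theorem chi_insert_le (G : SimpleGraph V) (X : Finset V) (v : V) :
    chi G (insert v X) ≤ chi G X + 1 := by
  have h1 : chi G {v} ≤ 1 := chi_indep (by
    intro x hx y hy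
    rw [mem_singleton] at hx hy
    subst hx
    subst hy
    exact G.loopless.irrefl _)
  have h2 := chi_union_le G {v} X
  have h3 : insert v X = {v} ∪ X := rfl
  rw [h3]
  omega

theorem chi_biUnion_le {ι : Type*} [DecidableEq ι] (G : SimpleGraph V) (T : Finset ι)
    (g : ι → Finset V) : chi G (T.biUnion g) ≤ ∑ t ∈ T, chi G (g t) := by
  induction T using Finset.induction_on with
  | empty => simp [chi_empty]
  | insert t T ht ih =>
    rw [biUnion_insert, sum_insert ht]
    exact (chi_union_le G _ _).trans (Nat.add_le_add_left ih _)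

end Vale.Agent.P060
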