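import Vale.Agent.P060.Defs

namespace Vale.Agent.P060

open Finset

variable {V : Type*}

theorem hasCliqueMinor_of_fintype {G : SimpleGraph V} {ι : Type*} [Fintype ι] (B : ι → Set V)
    (h1 : ∀ i, (G.induce (B i)).Connected) (h2 : ∀ i j, i ≠ j → Disjoint (B i) (B j))
    (h3 : ∀ i j, i ≠ j → ∃ x ∈ B i, ∃ y ∈ B j, G.Adj x y) {t : ℕ} (ht : t = Fintype.card ι) :
    HasCliqueMinor G t := by
  subst ht
  let e := (Fintype.equivFin ι).symm
  exact ⟨fun i => B (e i), fun i => h1 _, fun i j hij => h2 _ _ (e.injective.ne hij),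
    fun i j hij => h3 _ _ (e.injective.ne hij)⟩

theorem HasCliqueMinor.le_card [Fintype V] {G : SimpleGraph V} {t : ℕ}
    (h : HasCliqueMinor G t) : t ≤ Fintype.card V := by
  classical
  obtain ⟨B, h1, h2, _⟩ := h
  have hne : ∀ i, ∃ x, x ∈ B i := by
    intro i
    obtain ⟨x⟩ := (h1 i).nonempty
    exact ⟨x.1, x.2⟩
  choose f hf using hne
  have hinj : Function.Injective f := by
    intro i j hij
    by_contra hne'
    exact Set.disjoint_left.1 (h2 i j hne') (hf i) (hij ▸ hf j)
  simpa using Fintype.card_le_of_injective f hinj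

theorem HasCliqueMinor.mono {G : SimpleGraph V} {s t : ℕ} (hst : s ≤ t)
    (h : HasCliqueMinor G t) : HasCliqueMinor G s := by
  obtain ⟨B, h1, h2, h3⟩ := h
  exact ⟨fun i => B (Fin.castLE hst i), fun i => h1 _,
    fun i j hij => h2 _ _ ((Fin.castLE_injective hst).ne hij),
    fun i j hij => h3 _ _ ((Fin.castLE_injective hst).ne hij)⟩

theorem hasCliqueMinor_zero (G : SimpleGraph V) : HasCliqueMinor G 0 :=
  ⟨fun i => i.elim0, fun i => i.elim0, fun i => i.elim0, fun i => i.elim0⟩

theorem bddAbove_minor [Fintype V] (G : SimpleGraph V) :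
    BddAbove {t : ℕ | HasCliqueMinor G t} :=
  ⟨Fintype.card V, fun _ h => HasCliqueMinor.le_card h⟩

theorem le_hadwigerNumber [Fintype V] {G : SimpleGraph V} {t : ℕ} (h : HasCliqueMinor G t) :
    t ≤ hadwigerNumber G :=
  le_csSup (bddAbove_minor G) h

theorem hasCliqueMinor_hadwigerNumber [Fintype V] (G : SimpleGraph V) :
    HasCliqueMinor G (hadwigerNumber G) :=
  Nat.sSup_mem ⟨0, hasCliqueMinor_zero G⟩ (bddAbove_minor G)

theorem hasCliqueMinor_iff [Fintype V] {G : SimpleGraph V} {t : ℕ} :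
    HasCliqueMinor G t ↔ t ≤ hadwigerNumber G :=
  ⟨le_hadwigerNumber, fun h => (hasCliqueMinor_hadwigerNumber G).mono h⟩

theorem induce_pair_connected {G : SimpleGraph V} {x y : V} (h : G.Adj x y) :
    (G.induce ({x, y} : Set V)).Connected := by
  rw [SimpleGraph.connected_iff]
  refine ⟨?_, ⟨⟨x, by simp⟩⟩⟩
  have hxy : (G.induce ({x, y} : Set V)).Adj ⟨x, by simp⟩ ⟨y, by simp⟩ := by
    simpa using h
  rintro ⟨u, hu⟩ ⟨v, hv⟩
  rcases hu with rfl | hu <;> rcases hv with rfl | hv
  · exact SimpleGraph.Reachable.refl _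
  · have : v = y := hv
    subst this
    exact hxy.reachable
  · have : u = y := hu
    subst this
    exact hxy.symm.reachable
  · have h1 : u = y := hu
    have h2 : v = y := hv
    subst h1
    subst h2
    exact SimpleGraph.Reachable.refl _

theorem induce_singleton_connected {G : SimpleGraph V} (x : V) :
    (G.induce ({x} : Set V)).Connected := by
  rw [SimpleGraph.connected_iff]
  refine ⟨?_, ⟨⟨x, by simp⟩⟩⟩
  rintro ⟨u, hu⟩ ⟨v, hv⟩
  have h1 : u = x := hu
  have h2 : v = x := hv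
  subst h1
  subst h2
  exact SimpleGraph.Reachable.refl _

end Vale.Agent.P060
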