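import Vale.Agent.P060.PermLemma

namespace Vale.Agent.P060

open Finset Equiv

def evBad {N : ℕ} (F : Fin N → Fin N → Prop) (Q : Fin N → Fin N → Fin N → Fin N → Prop) :
    Ev N → Prop
  | Sum.inl c => F c.1 c.2
  | Sum.inr d => d.1.1 ≠ d.2.1 ∧ d.1.2 ≠ d.2.2 ∧ Q d.1.1 d.1.2 d.2.1 d.2.2

noncomputable def evX {N : ℕ} : Ev N → ℝ
  | Sum.inl _ => (4 / 3) / N
  | Sum.inr _ => 2 / (N * (N - 1))

noncomputable def evP {N : ℕ} : Ev N → ℝ
  | Sum.inl _ => 1 / N
  | Sum.inr _ => 1 / (N * (N - 1))

theorem sum_nb_le {N : ℕ} (all : Finset (Ev N)) (x : Ev N → ℝ) (hx : ∀ e, 0 ≤ x e) (W : ℝ)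
    (hrow : ∀ r, ∑ e' ∈ all.filter (fun e' => r ∈ evRows e'), x e' ≤ W)
    (hcol : ∀ c, ∑ e' ∈ all.filter (fun e' => c ∈ evCols e'), x e' ≤ W) (e : Ev N) :
    ∑ e' ∈ all.filter (fun e' => evNb e e'), x e' ≤ ((evRows e).card + (evCols e).card) * W := by
  have h1 : ∑ e' ∈ all.filter (fun e' => evNb e e'), x e' ≤
      ∑ e' ∈ all, ((∑ r ∈ evRows e, if r ∈ evRows e' then x e' else 0) +
        ∑ c ∈ evCols e, if c ∈ evCols e' then x e' else 0) := by
    rw [sum_filter]
    apply sum_le_sum
    intro e' _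
    have ha : 0 ≤ ∑ r ∈ evRows e, (if r ∈ evRows e' then x e' else 0) :=
      sum_nonneg (fun r _ => by split_ifs <;> [exact hx e'; exact le_refl _])
    have hb : 0 ≤ ∑ c ∈ evCols e, (if c ∈ evCols e' then x e' else 0) :=
      sum_nonneg (fun r _ => by split_ifs <;> [exact hx e'; exact le_refl _])
    split_ifs with h
    · unfold evNb at h
      rw [not_and_or] at h
      rcases h with h | h
      · rw [not_disjoint_iff] at h
        obtain ⟨r, hr, hr'⟩ := h
        have : x e' ≤ ∑ r ∈ evRows e, (if r ∈ evRows e' then x e' else 0) := by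
          have h3 := single_le_sum (f := fun r => if r ∈ evRows e' then x e' else 0)
            (fun i _ => by
              show (0 : ℝ) ≤ if i ∈ evRows e' then x e' else 0
              split_ifs <;> [exact hx e'; exact le_refl _]) hr
          simp only [hr', if_true] at h3
          exact h3
        linarith
      · rw [not_disjoint_iff] at h
        obtain ⟨c, hc, hc'⟩ := h
        have : x e' ≤ ∑ c ∈ evCols e, (if c ∈ evCols e' then x e' else 0) := by
          have h3 := single_le_sum (f := fun c => if c ∈ evCols e' then x e' else 0)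
            (fun i _ => by
              show (0 : ℝ) ≤ if i ∈ evCols e' then x e' else 0
              split_ifs <;> [exact hx e'; exact le_refl _]) hc
          simp only [hc', if_true] at h3
          exact h3
        linarith
    · linarith
  refine h1.trans ?_
  rw [sum_add_distrib, sum_comm, sum_comm (s := all) (t := evCols e)]
  have h2 : ∑ r ∈ evRows e, ∑ e' ∈ all, (if r ∈ evRows e' then x e' else 0) ≤
      ∑ _r ∈ evRows e, W := by
    apply sum_le_sum
    intro r _
    rw [← sum_filter]
    exact hrow r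
  have h3 : ∑ r ∈ evCols e, ∑ e' ∈ all, (if r ∈ evCols e' then x e' else 0) ≤
      ∑ _r ∈ evCols e, W := by
    apply sum_le_sum
    intro r _
    rw [← sum_filter]
    exact hcol r
  rw [sum_const, nsmul_eq_mul] at h2 h3
  linarith

theorem sum_union_le' {α : Type*} [DecidableEq α] {x : α → ℝ} (hx : ∀ e, 0 ≤ x e)
    (A B : Finset α) : ∑ e ∈ A ∪ B, x e ≤ ∑ e ∈ A, x e + ∑ e ∈ B, x e := by
  have h := sum_union_inter (s₁ := A) (s₂ := B) (f := x)
  have h2 : 0 ≤ ∑ e ∈ A ∩ B, x e := sum_nonneg (fun e _ => hx e)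
  linarith

theorem sum_image_le {N : ℕ} {β : Type*} [DecidableEq β] (g : β → Ev N) (T : Finset β)
    (x : Ev N → ℝ) (v : ℝ) (hv : 0 ≤ v) (hx : ∀ b ∈ T, x (g b) = v) :
    ∑ e ∈ T.image g, x e ≤ T.card * v := by
  have h1 : ∑ e ∈ T.image g, x e = ∑ e ∈ T.image g, v := by
    apply sum_congr rfl
    intro e he
    obtain ⟨b, hb, rfl⟩ := mem_image.1 he
    exact hx b hb
  rw [h1, sum_const, nsmul_eq_mul]
  apply mul_le_mul_of_nonneg_right _ hv
  exact_mod_cast card_image_le

theorem perm_avoid {N : ℕ} (hN : 3 ≤ N) (F : Fin N → Fin N → Prop)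
    (Q : Fin N → Fin N → Fin N → Fin N → Prop) (f t : ℝ)
    [∀ i j, Decidable (F i j)] [∀ i j k l, Decidable (Q i j k l)]
    (hFr : ∀ i, ((univ.filter (fun j => F i j)).card : ℝ) ≤ f)
    (hFc : ∀ j, ((univ.filter (fun i => F i j)).card : ℝ) ≤ f)
    (hQsym : ∀ i j k l, Q i j k l → Q k l i j)
    (hQr : ∀ i, ((univ.filter
      (fun v : Fin N × Fin N × Fin N => Q i v.1 v.2.1 v.2.2)).card : ℝ) ≤ t)
    (hQc : ∀ j, ((univ.filter
      (fun v : Fin N × Fin N × Fin N => Q v.1 j v.2.1 v.2.2)).card : ℝ) ≤ t)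
    (hcond : (4 / 3) * f / N + 4 * t / (N * (N - 1)) ≤ 1 / 8) :
    ∃ π : Perm (Fin N), (∀ i, ¬ F i (π i)) ∧ ∀ i k, i ≠ k → ¬ Q i (π i) k (π k) := by
  classical
  have hN0 : (0 : ℝ) < N := by
    have : 0 < N := by omega
    exact_mod_cast this
  have hN1 : (0 : ℝ) < (N : ℝ) - 1 := by
    have : (3 : ℝ) ≤ N := by exact_mod_cast hN
    linarith
  have hNN : (0 : ℝ) < (N : ℝ) * ((N : ℝ) - 1) := mul_pos hN0 hN1
  set all : Finset (Ev N) := univ.filter (fun e => evBad F Q e) with hall
  have hx0 : ∀ e : Ev N, 0 ≤ evX e := by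
    intro e
    rcases e with c | d
    · show (0 : ℝ) ≤ (4 / 3) / N
      positivity
    · show (0 : ℝ) ≤ 2 / (N * (N - 1))
      exact div_nonneg (by norm_num) hNN.le
  have hv1 : (0 : ℝ) ≤ (4 / 3) / N := by positivity
  have hv2 : (0 : ℝ) ≤ 2 / ((N : ℝ) * (N - 1)) := div_nonneg (by norm_num) hNN.le
  have hW : f * ((4 / 3) / N) + (t * (2 / ((N : ℝ) * (N - 1))) + t * (2 / ((N : ℝ) * (N - 1))))
      ≤ 1 / 8 := by
    refine le_trans (le_of_eq ?_) hcond
    field_simp
    ring
  have hrow : ∀ r, ∑ e' ∈ all.filter (fun e' => r ∈ evRows e'), evX e' ≤ 1 / 8 := by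
    intro r
    have hsub : all.filter (fun e' => r ∈ evRows e') ⊆
        (univ.filter (fun j => F r j)).image (fun j => (Sum.inl (r, j) : Ev N)) ∪
        ((univ.filter (fun v : Fin N × Fin N × Fin N => Q r v.1 v.2.1 v.2.2)).image
          (fun v => (Sum.inr ((r, v.1), (v.2.1, v.2.2)) : Ev N)) ∪
        (univ.filter (fun v : Fin N × Fin N × Fin N => Q r v.1 v.2.1 v.2.2)).image
          (fun v => (Sum.inr ((v.2.1, v.2.2), (r, v.1)) : Ev N))) := by
      intro e he
      rw [mem_filter, hall, mem_filter] at he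
      obtain ⟨⟨_, hb⟩, hr⟩ := he
      rcases e with ⟨i, j⟩ | ⟨⟨i, j⟩, ⟨k, l⟩⟩
      · simp only [evRows, mem_singleton] at hr
        subst hr
        simp only [evBad] at hb
        apply mem_union_left
        rw [mem_image]
        exact ⟨j, by simpa using hb, rfl⟩
      · simp only [evRows, mem_insert, mem_singleton] at hr
        simp only [evBad] at hb
        apply mem_union_right
        rcases hr with hr | hr
        · subst hr
          apply mem_union_left
          rw [mem_image]
          exact ⟨(j, k, l), by simpa using hb.2.2, rfl⟩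
        · subst hr
          apply mem_union_right
          rw [mem_image]
          exact ⟨(l, i, j), by simpa using hQsym _ _ _ _ hb.2.2, rfl⟩
    refine (sum_le_sum_of_subset_of_nonneg hsub (fun e _ _ => hx0 e)).trans ?_
    refine le_trans ?_ hW
    refine (sum_union_le' hx0 _ _).trans ?_
    refine add_le_add ?_ ?_
    · refine (sum_image_le _ _ _ ((4 / 3) / N) hv1 (fun b _ => rfl)).trans ?_
      exact mul_le_mul_of_nonneg_right (hFr r) hv1
    refine (sum_union_le' hx0 _ _).trans ?_
    refine add_le_add ?_ ?_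
    · refine (sum_image_le _ _ _ (2 / ((N : ℝ) * (N - 1))) hv2 (fun b _ => rfl)).trans ?_
      exact mul_le_mul_of_nonneg_right (hQr r) hv2
    · refine (sum_image_le _ _ _ (2 / ((N : ℝ) * (N - 1))) hv2 (fun b _ => rfl)).trans ?_
      exact mul_le_mul_of_nonneg_right (hQr r) hv2
  have hcol : ∀ r, ∑ e' ∈ all.filter (fun e' => r ∈ evCols e'), evX e' ≤ 1 / 8 := by
    intro r
    have hsub : all.filter (fun e' => r ∈ evCols e') ⊆
        (univ.filter (fun i => F i r)).image (fun i => (Sum.inl (i, r) : Ev N)) ∪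
        ((univ.filter (fun v : Fin N × Fin N × Fin N => Q v.1 r v.2.1 v.2.2)).image
          (fun v => (Sum.inr ((v.1, r), (v.2.1, v.2.2)) : Ev N)) ∪
        (univ.filter (fun v : Fin N × Fin N × Fin N => Q v.1 r v.2.1 v.2.2)).image
          (fun v => (Sum.inr ((v.2.1, v.2.2), (v.1, r)) : Ev N))) := by
      intro e he
      rw [mem_filter, hall, mem_filter] at he
      obtain ⟨⟨_, hb⟩, hr⟩ := he
      rcases e with ⟨i, j⟩ | ⟨⟨i, j⟩, ⟨k, l⟩⟩
      · simp only [evCols, mem_singleton] at hr
        subst hr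
        simp only [evBad] at hb
        apply mem_union_left
        rw [mem_image]
        exact ⟨i, by simpa using hb, rfl⟩
      · simp only [evCols, mem_insert, mem_singleton] at hr
        simp only [evBad] at hb
        apply mem_union_right
        rcases hr with hr | hr
        · subst hr
          apply mem_union_left
          rw [mem_image]
          exact ⟨(i, k, l), by simpa using hb.2.2, rfl⟩
        · subst hr
          apply mem_union_right
          rw [mem_image]
          exact ⟨(k, i, j), by simpa using hQsym _ _ _ _ hb.2.2, rfl⟩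
    refine (sum_le_sum_of_subset_of_nonneg hsub (fun e _ _ => hx0 e)).trans ?_
    refine le_trans ?_ hW
    refine (sum_union_le' hx0 _ _).trans ?_
    refine add_le_add ?_ ?_
    · refine (sum_image_le _ _ _ ((4 / 3) / N) hv1 (fun b _ => rfl)).trans ?_
      exact mul_le_mul_of_nonneg_right (hFc r) hv1
    refine (sum_union_le' hx0 _ _).trans ?_
    refine add_le_add ?_ ?_
    · refine (sum_image_le _ _ _ (2 / ((N : ℝ) * (N - 1))) hv2 (fun b _ => rfl)).trans ?_
      exact mul_le_mul_of_nonneg_right (hQc r) hv2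
    · refine (sum_image_le _ _ _ (2 / ((N : ℝ) * (N - 1))) hv2 (fun b _ => rfl)).trans ?_
      exact mul_le_mul_of_nonneg_right (hQc r) hv2
  have hlll : (avoid (evSet (N := N)) all).Nonempty := by
    apply lll (evSet (N := N)) (fun e e' => evNb e e') evP evX all (fun e _ => hx0 e)
    · intro e _
      rcases e with c | d
      · show (4 / 3) / (N : ℝ) < 1
        rw [div_lt_one hN0]
        have : (3 : ℝ) ≤ N := by exact_mod_cast hN
        linarith
      · show 2 / ((N : ℝ) * (N - 1)) < 1
        rw [div_lt_one hNN]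
        have : (3 : ℝ) ≤ N := by exact_mod_cast hN
        nlinarith
    · intro e he S hS hnb
      have hr : ∀ e' ∈ S, Disjoint (evRows e) (evRows e') ∧ Disjoint (evCols e) (evCols e') := by
        intro e' he'
        have := hnb e' he'
        unfold evNb at this
        exact not_not.1 this
      rcases e with ⟨i, j⟩ | ⟨⟨i, j⟩, ⟨k, l⟩⟩
      · show _ ≤ 1 / (N : ℝ) * _
        have h1 := one_cell S i j
          (fun e' he' h => disjoint_left.1 (hr e' he').1 (by simp [evRows]) h)
          (fun e' he' h => disjoint_left.1 (hr e' he').2 (by simp [evCols]) h)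
        have h2 : avoid evSet S ∩ evSet (Sum.inl (i, j)) =
            (avoid evSet S).filter (fun π => π i = j) := by
          ext π; simp [evSet]
        rw [h2]
        have h3 : (N : ℝ) * (((avoid evSet S).filter (fun π => π i = j)).card : ℝ) ≤
            (avoid evSet S).card := by exact_mod_cast h1
        rw [div_mul_eq_mul_div, one_mul, le_div_iff₀ hN0]
        linarith
      · show _ ≤ 1 / ((N : ℝ) * (N - 1)) * _
        rw [hall, mem_filter] at he
        have hbad := he.2
        simp only [evBad] at hbad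
        have h1 := two_cell S i j k l hbad.1 hbad.2.1
          (fun e' he' h => disjoint_left.1 (hr e' he').1 (by simp [evRows]) h)
          (fun e' he' h => disjoint_left.1 (hr e' he').2 (by simp [evCols]) h)
          (fun e' he' h => disjoint_left.1 (hr e' he').1 (by simp [evRows]) h)
          (fun e' he' h => disjoint_left.1 (hr e' he').2 (by simp [evCols]) h)
        have h2 : avoid evSet S ∩ evSet (Sum.inr ((i, j), (k, l))) =
            (avoid evSet S).filter (fun π => π i = j ∧ π k = l) := by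
          ext π; simp [evSet]
        rw [h2]
        have h3 : (N : ℝ) * (((N - 1 : ℕ) : ℝ) *
            (((avoid evSet S).filter (fun π => π i = j ∧ π k = l)).card : ℝ)) ≤
            (avoid evSet S).card := by exact_mod_cast h1
        rw [Nat.cast_sub (by omega), Nat.cast_one] at h3
        rw [div_mul_eq_mul_div, one_mul, le_div_iff₀ hNN]
        linarith
    · intro e he
      have h1 := sum_nb_le all evX hx0 (1 / 8) hrow hcol e
      rcases e with ⟨i, j⟩ | ⟨⟨i, j⟩, ⟨k, l⟩⟩
      · show 1 / (N : ℝ) ≤ (4 / 3) / N * _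
        simp only [evRows, evCols, card_singleton] at h1
        have h2 : (3 / 4 : ℝ) ≤ 1 - ∑ e' ∈ all.filter (fun e' => evNb (Sum.inl (i, j)) e'), evX e' := by
          norm_num at h1 ⊢
          linarith
        calc 1 / (N : ℝ) = (4 / 3) / N * (3 / 4) := by field_simp
          _ ≤ _ := mul_le_mul_of_nonneg_left h2 hv1
      · show 1 / ((N : ℝ) * (N - 1)) ≤ 2 / (N * (N - 1)) * _
        have hc1 : ((evRows (Sum.inr ((i, j), (k, l)) : Ev N)).card : ℝ) ≤ 2 := by
          exact_mod_cast card_le_two
        have hc2 : ((evCols (Sum.inr ((i, j), (k, l)) : Ev N)).card : ℝ) ≤ 2 := by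
          exact_mod_cast card_le_two
        have h2 : (1 / 2 : ℝ) ≤ 1 - ∑ e' ∈ all.filter
            (fun e' => evNb (Sum.inr ((i, j), (k, l))) e'), evX e' := by
          linarith
        calc 1 / ((N : ℝ) * (N - 1)) = 2 / (N * (N - 1)) * (1 / 2) := by
              field_simp
          _ ≤ _ := mul_le_mul_of_nonneg_left h2 hv2
  obtain ⟨π, hπ⟩ := hlll
  rw [mem_avoid] at hπ
  refine ⟨π, ?_, ?_⟩
  · intro i hF
    apply hπ (Sum.inl (i, π i))
    · rw [hall, mem_filter]
      exact ⟨mem_univ _, hF⟩
    · simp [evSet]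
  · intro i k hik hQ
    apply hπ (Sum.inr ((i, π i), (k, π k)))
    · rw [hall, mem_filter]
      exact ⟨mem_univ _, hik, fun h => hik (π.injective h), hQ⟩
    · simp [evSet]

end Vale.Agent.P060
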