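import Vale.Agent.P060.Count
import Vale.Agent.P060.PermAvoid
import Vale.Agent.P060.Minor

namespace Vale.Agent.P060

open Finset Equiv

variable {V : Type*} [Fintype V] [DecidableEq V]

open Classical in
theorem adj_row (H : SimpleGraph V) [DecidableRel H.Adj] {N : ℕ} (D : ℕ)
    (hD : ∀ v, (H.neighborFinset v).card ≤ D)
    (b : Fin N → V) (hb : Function.Injective b) (x : V) :
    (univ.filter (fun j => H.Adj x (b j))).card ≤ D := by
  refine le_trans ?_ (hD x)
  rw [← card_image_of_injective (univ.filter (fun j => H.Adj x (b j))) hb]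
  apply card_le_card
  intro y hy
  obtain ⟨j, hj, rfl⟩ := mem_image.1 hy
  rw [SimpleGraph.mem_neighborFinset]
  exact (mem_filter.1 hj).2

open Classical in
theorem single_row (H : SimpleGraph V) [DecidableRel H.Adj] {N : ℕ} (D : ℕ)
    (hD : ∀ v, (H.neighborFinset v).card ≤ D) (S : Finset V)
    (b : Fin N → V) (hb : Function.Injective b) (x : V)
    (hu : ∀ s ∈ S, ∀ s' ∈ S, H.Adj s x → H.Adj s' x → s = s') :
    (univ.filter (fun j => ∃ s ∈ S, H.Adj s x ∧ H.Adj s (b j))).card ≤ D := by
  by_cases h : ∃ s ∈ S, H.Adj s x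
  · obtain ⟨s, hs, hsx⟩ := h
    refine le_trans (card_le_card ?_) (adj_row H D hD b hb s)
    intro j hj
    rw [mem_filter] at hj ⊢
    obtain ⟨_, s', hs', h1, h2⟩ := hj
    have := hu s hs s' hs' hsx h1
    subst this
    exact ⟨mem_univ _, h2⟩
  · have : (univ.filter (fun j => ∃ s ∈ S, H.Adj s x ∧ H.Adj s (b j))) = ∅ := by
      rw [filter_eq_empty_iff]
      rintro j _ ⟨s, hs, h1, _⟩
      exact h ⟨s, hs, h1⟩
    rw [this]
    simp

def FF (H : SimpleGraph V) {N : ℕ} (K : ℝ) [DecidableRel H.Adj] (S : Finset V) (a b : Fin N → V)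
    (i j : Fin N) : Prop :=
  H.Adj (a i) (b j) ∨ (∃ s ∈ S, H.Adj s (a i) ∧ H.Adj s (b j)) ∨ K < (cod H (a i) (b j) : ℝ)

open Classical in
theorem FF_row (H : SimpleGraph V) [DecidableRel H.Adj] {N : ℕ} (D W : ℕ)
    (hD : ∀ v, (H.neighborFinset v).card ≤ D)
    (hW : ∀ v, ∑ x ∈ H.neighborFinset v, (H.neighborFinset x).card ≤ W) (S : Finset V)
    (a b : Fin N → V) (hb : Function.Injective b) {K : ℝ} (hK : 0 < K) (i : Fin N)
    (hu : ∀ s ∈ S, ∀ s' ∈ S, H.Adj s (a i) → H.Adj s' (a i) → s = s') :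
    ((univ.filter (fun j => FF H K S a b i j)).card : ℝ) ≤ 2 * D + W / K := by
  have h1 := adj_row H D hD b hb (a i)
  have h2 := single_row H D hD S b hb (a i) hu
  have h3 := high_row H W hW b hb (a i) hK
  have hsub : univ.filter (fun j => FF H K S a b i j) ⊆
      univ.filter (fun j => H.Adj (a i) (b j)) ∪
      (univ.filter (fun j => ∃ s ∈ S, H.Adj s (a i) ∧ H.Adj s (b j)) ∪
      univ.filter (fun j => K < (cod H (a i) (b j) : ℝ))) := by
    intro j hj
    have hj' := (mem_filter.1 hj).2
    rcases hj' with h | h | h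
    · exact mem_union_left _ (mem_filter.2 ⟨mem_univ _, h⟩)
    · exact mem_union_right _ (mem_union_left _ (mem_filter.2 ⟨mem_univ _, h⟩))
    · exact mem_union_right _ (mem_union_right _ (mem_filter.2 ⟨mem_univ _, h⟩))
  have h4 := (card_le_card hsub).trans ((card_union_le _ _).trans
    (Nat.add_le_add_left (card_union_le _ _) _))
  have h5 : ((univ.filter (fun j => FF H K S a b i j)).card : ℝ) ≤
      ((univ.filter (fun j => H.Adj (a i) (b j))).card : ℝ) +
      (((univ.filter (fun j => ∃ s ∈ S, H.Adj s (a i) ∧ H.Adj s (b j))).card : ℝ) +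
      ((univ.filter (fun j => K < (cod H (a i) (b j) : ℝ))).card : ℝ)) := by
    exact_mod_cast h4
  have h1' : ((univ.filter (fun j => H.Adj (a i) (b j))).card : ℝ) ≤ D := by exact_mod_cast h1
  have h2' : ((univ.filter (fun j => ∃ s ∈ S, H.Adj s (a i) ∧ H.Adj s (b j))).card : ℝ) ≤ D := by
    exact_mod_cast h2
  linarith

theorem FF_swap {H : SimpleGraph V} {N : ℕ} {K : ℝ} [DecidableRel H.Adj] {S : Finset V}
    {a b : Fin N → V} (i j : Fin N) (h : FF H K S a b i j) : FF H K S b a j i := by
  rcases h with h | ⟨s, hs, h1, h2⟩ | h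
  · exact Or.inl h.symm
  · exact Or.inr (Or.inl ⟨s, hs, h2, h1⟩)
  · right; right; rw [cod_comm]; exact h

open Classical in
theorem core (H : SimpleGraph V) [DecidableRel H.Adj] (D W : ℕ)
    (hD : ∀ v, (H.neighborFinset v).card ≤ D)
    (hW : ∀ v, ∑ x ∈ H.neighborFinset v, (H.neighborFinset x).card ≤ W)
    (S R : Finset V) (hSR : Disjoint S R) (N : ℕ) (hN : 3 ≤ N) (hR : R.card = 2 * N)
    (hS : ∀ s ∈ S, ∀ s' ∈ S, s ≠ s' → ¬ H.Adj s s')
    (hu : ∀ x ∈ R, ∀ s ∈ S, ∀ s' ∈ S, H.Adj s x → H.Adj s' x → s = s')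
    {K : ℝ} (hK : 0 < K)
    (hc : (4 / 3) * (2 * (D : ℝ) + W / K) / N + 4 * (K * W / 4) / (N * ((N : ℝ) - 1)) ≤ 1 / 8) :
    HasCliqueMinor Hᶜ (N + S.card) := by
  obtain ⟨A, hAR, hA⟩ := exists_subset_card_eq (s := R) (n := N) (by omega)
  have hB : (R \ A).card = N := by
    rw [card_sdiff_of_subset hAR]; omega
  set a : Fin N → V := fun i => ((A.equivFinOfCardEq hA).symm i : V) with ha_def
  set b : Fin N → V := fun i => (((R \ A).equivFinOfCardEq hB).symm i : V) with hb_def
  have haA : ∀ i, a i ∈ A := fun i => ((A.equivFinOfCardEq hA).symm i).2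
  have hbB : ∀ i, b i ∈ R \ A := fun i => (((R \ A).equivFinOfCardEq hB).symm i).2
  have haR : ∀ i, a i ∈ R := fun i => hAR (haA i)
  have hbR : ∀ i, b i ∈ R := fun i => (mem_sdiff.1 (hbB i)).1
  have ha : Function.Injective a := fun i j h => by
    have := Subtype.ext h
    exact (A.equivFinOfCardEq hA).symm.injective this
  have hb : Function.Injective b := fun i j h => by
    have := Subtype.ext h
    exact ((R \ A).equivFinOfCardEq hB).symm.injective this
  have hab : ∀ i j, a i ≠ b j := fun i j h => (mem_sdiff.1 (hbB j)).2 (h ▸ haA i)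
  obtain ⟨π, hπF, hπQ⟩ := perm_avoid hN (fun i j => FF H K S a b i j)
    (fun i j k l => QQ H K a b i j k l) (2 * (D : ℝ) + W / K) (K * W / 4)
    (fun i => FF_row H D W hD hW S a b hb hK i (hu (a i) (haR i)))
    (fun j => by
      refine le_trans ?_ (FF_row H D W hD hW S b a ha hK j (hu (b j) (hbR j)))
      have := card_le_card (s := univ.filter (fun i => FF H K S a b i j))
        (t := univ.filter (fun i => FF H K S b a j i)) (by
          intro i hi
          rw [mem_filter] at hi ⊢
          exact ⟨mem_univ _, FF_swap i j hi.2⟩)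
      exact_mod_cast this)
    (fun i j k l h => QQ_symm i j k l h)
    (fun i => quad_row H W hW a b ha hb hab hK i)
    (fun j => quad_col H W hW a b ha hb hab hK j) hc
  let B : Fin N ⊕ S → Set V :=
    Sum.elim (fun i : Fin N => ({a i, b (π i)} : Set V)) (fun s : S => ({s.1} : Set V))
  have hBl : ∀ i, B (Sum.inl i) = {a i, b (π i)} := fun i => rfl
  have hBr : ∀ s : S, B (Sum.inr s) = {s.1} := fun s => rfl
  have mema : ∀ i, a i ∈ B (Sum.inl i) := fun i => by rw [hBl]; exact Set.mem_insert _ _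
  have memb : ∀ i, b (π i) ∈ B (Sum.inl i) := fun i => by
    rw [hBl]; exact Set.mem_insert_of_mem _ rfl
  have mems : ∀ s : S, (s : V) ∈ B (Sum.inr s) := fun s => by rw [hBr]; rfl
  apply hasCliqueMinor_of_fintype B
  · intro e
    rcases e with i | s
    · apply induce_pair_connected
      rw [SimpleGraph.compl_adj]
      exact ⟨hab _ _, fun h => hπF i (Or.inl h)⟩
    · exact induce_singleton_connected _
  · intro e e' hne
    rcases e with i | s <;> rcases e' with k | s'
    · have hik : i ≠ k := fun h => hne (by rw [h])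
      rw [hBl, hBl, Set.disjoint_left]
      rintro x (rfl | hx) (hx' | hx')
      · exact hik (ha hx')
      · exact hab _ _ hx'
      · exact hab _ _ (hx'.symm.trans hx)
      · exact hik (π.injective (hb ((hx : x = _).symm.trans hx')))
    · rw [hBl, hBr, Set.disjoint_left]
      rintro x (hx | hx) hx'
      · exact disjoint_left.1 hSR s'.2 ((hx' : x = _) ▸ (hx : x = _) ▸ haR i)
      · exact disjoint_left.1 hSR s'.2 ((hx' : x = _) ▸ (hx : x = _) ▸ hbR (π i))
    · rw [hBr, hBl, Set.disjoint_left]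
      rintro x hx' (hx | hx)
      · exact disjoint_left.1 hSR s.2 ((hx' : x = _) ▸ (hx : x = _) ▸ haR k)
      · exact disjoint_left.1 hSR s.2 ((hx' : x = _) ▸ (hx : x = _) ▸ hbR (π k))
    · have hss : (s : V) ≠ s' := fun h => hne (by rw [Subtype.ext h])
      rw [hBr, hBr, Set.disjoint_left]
      intro x hx hx'
      exact hss ((hx : x = _).symm.trans hx')
  · intro e e' hne
    rcases e with i | s <;> rcases e' with k | s'
    · have hik : i ≠ k := fun h => hne (by rw [h])
      have h1 := hπF i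
      have h2 := hπF k
      have h3 := hπQ i k hik
      have hc1 : (cod H (a i) (b (π i)) : ℝ) ≤ K := by
        by_contra h
        exact h1 (Or.inr (Or.inr (not_le.1 h)))
      have hc2 : (cod H (a k) (b (π k)) : ℝ) ≤ K := by
        by_contra h
        exact h2 (Or.inr (Or.inr (not_le.1 h)))
      by_cases e1 : H.Adj (a i) (a k)
      · by_cases e2 : H.Adj (a i) (b (π k))
        · by_cases e3 : H.Adj (b (π i)) (a k)
          · by_cases e4 : H.Adj (b (π i)) (b (π k))
            · exact absurd ⟨hc1, hc2, e1, e2, e3, e4⟩ h3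
            · exact ⟨b (π i), memb i, b (π k), memb k, by
                rw [SimpleGraph.compl_adj]
                exact ⟨fun h => hik (π.injective (hb h)), e4⟩⟩
          · exact ⟨b (π i), memb i, a k, mema k, by
              rw [SimpleGraph.compl_adj]
              exact ⟨fun h => hab _ _ h.symm, e3⟩⟩
        · exact ⟨a i, mema i, b (π k), memb k, by
            rw [SimpleGraph.compl_adj]
            exact ⟨hab _ _, e2⟩⟩
      · exact ⟨a i, mema i, a k, mema k, by
          rw [SimpleGraph.compl_adj]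
          exact ⟨fun h => hik (ha h), e1⟩⟩
    · by_cases e1 : H.Adj s' (a i)
      · by_cases e2 : H.Adj s' (b (π i))
        · exact absurd (Or.inr (Or.inl ⟨s', s'.2, e1, e2⟩)) (hπF i)
        · exact ⟨b (π i), memb i, s', mems s', by
            rw [SimpleGraph.compl_adj]
            exact ⟨fun h => disjoint_left.1 hSR s'.2 (h ▸ hbR (π i)), fun h => e2 h.symm⟩⟩
      · exact ⟨a i, mema i, s', mems s', by
          rw [SimpleGraph.compl_adj]
          exact ⟨fun h => disjoint_left.1 hSR s'.2 (h ▸ haR i), fun h => e1 h.symm⟩⟩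
    · by_cases e1 : H.Adj s (a k)
      · by_cases e2 : H.Adj s (b (π k))
        · exact absurd (Or.inr (Or.inl ⟨s, s.2, e1, e2⟩)) (hπF k)
        · exact ⟨s, mems s, b (π k), memb k, by
            rw [SimpleGraph.compl_adj]
            exact ⟨fun h => disjoint_left.1 hSR s.2 (h ▸ hbR (π k)), e2⟩⟩
      · exact ⟨s, mems s, a k, mema k, by
          rw [SimpleGraph.compl_adj]
          exact ⟨fun h => disjoint_left.1 hSR s.2 (h ▸ haR k), e1⟩⟩
    · have hss : (s : V) ≠ s' := fun h => hne (by rw [Subtype.ext h])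
      exact ⟨s, mems s, s', mems s', by
        rw [SimpleGraph.compl_adj]
        exact ⟨hss, hS s s.2 s' s'.2 hss⟩⟩
  · simp

end Vale.Agent.P060
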