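import Mathlib

namespace Vale.Agent.P060

open Finset

variable {V : Type*} [Fintype V] [DecidableEq V]

def cod (H : SimpleGraph V) [DecidableRel H.Adj] (x y : V) : ℕ :=
  (H.neighborFinset x ∩ H.neighborFinset y).card

theorem cod_comm (H : SimpleGraph V) [DecidableRel H.Adj] (x y : V) : cod H x y = cod H y x := by
  unfold cod; rw [inter_comm]

theorem sum_cod (H : SimpleGraph V) [DecidableRel H.Adj] (x : V) :
    ∑ y, cod H x y = ∑ z ∈ H.neighborFinset x, (H.neighborFinset z).card := by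
  unfold cod
  have h1 : ∀ y, (H.neighborFinset x ∩ H.neighborFinset y).card =
      ∑ z ∈ H.neighborFinset x, if H.Adj y z then 1 else 0 := by
    intro y
    rw [← sum_filter, sum_const, smul_eq_mul, mul_one]
    congr 1
    ext z
    simp
  simp_rw [h1]
  rw [sum_comm]
  apply sum_congr rfl
  intro z _
  rw [← sum_filter, sum_const, smul_eq_mul, mul_one]
  congr 1
  ext y
  simp [SimpleGraph.adj_comm]

def QQ (H : SimpleGraph V) {N : ℕ} (K : ℝ) [DecidableRel H.Adj] (a b : Fin N → V)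
    (i j k l : Fin N) : Prop :=
  (cod H (a i) (b j) : ℝ) ≤ K ∧ (cod H (a k) (b l) : ℝ) ≤ K ∧
    H.Adj (a i) (a k) ∧ H.Adj (a i) (b l) ∧ H.Adj (b j) (a k) ∧ H.Adj (b j) (b l)

theorem QQ_symm {H : SimpleGraph V} {N : ℕ} {K : ℝ} [DecidableRel H.Adj] {a b : Fin N → V}
    (i j k l : Fin N) (h : QQ H K a b i j k l) : QQ H K a b k l i j :=
  ⟨h.2.1, h.1, h.2.2.1.symm, h.2.2.2.2.1.symm, h.2.2.2.1.symm, h.2.2.2.2.2.symm⟩

theorem QQ_swap {H : SimpleGraph V} {N : ℕ} {K : ℝ} [DecidableRel H.Adj] {a b : Fin N → V}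
    (i j k l : Fin N) (h : QQ H K a b i j k l) : QQ H K b a j i l k :=
  ⟨by rw [cod_comm]; exact h.1, by rw [cod_comm]; exact h.2.1,
    h.2.2.2.2.2, h.2.2.2.2.1, h.2.2.2.1, h.2.2.1⟩

theorem sum_cod_row (H : SimpleGraph V) [DecidableRel H.Adj] {N : ℕ} (W : ℕ)
    (hW : ∀ v, ∑ x ∈ H.neighborFinset v, (H.neighborFinset x).card ≤ W)
    (b : Fin N → V) (hb : Function.Injective b) (x : V) :
    ∑ j, (cod H x (b j) : ℝ) ≤ W := by
  have h1 : ∑ j, cod H x (b j) ≤ W := by
    calc ∑ j, cod H x (b j) = ∑ y ∈ univ.image b, cod H x y := by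
          rw [sum_image (fun i _ j _ h => hb h)]
      _ ≤ ∑ y, cod H x y := sum_le_sum_of_subset (subset_univ _)
      _ ≤ W := by rw [sum_cod]; exact hW x
  exact_mod_cast h1

theorem high_row (H : SimpleGraph V) [DecidableRel H.Adj] {N : ℕ} (W : ℕ)
    (hW : ∀ v, ∑ x ∈ H.neighborFinset v, (H.neighborFinset x).card ≤ W)
    (b : Fin N → V) (hb : Function.Injective b) (x : V) {K : ℝ} (hK : 0 < K) :
    ((univ.filter (fun j => K < (cod H x (b j) : ℝ))).card : ℝ) ≤ W / K := by
  rw [le_div_iff₀ hK]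
  calc ((univ.filter (fun j => K < (cod H x (b j) : ℝ))).card : ℝ) * K
      = ∑ j ∈ univ.filter (fun j => K < (cod H x (b j) : ℝ)), K := by
        rw [sum_const, nsmul_eq_mul]
    _ ≤ ∑ j ∈ univ.filter (fun j => K < (cod H x (b j) : ℝ)), (cod H x (b j) : ℝ) :=
        sum_le_sum (fun j hj => (mem_filter.1 hj).2.le)
    _ ≤ ∑ j, (cod H x (b j) : ℝ) :=
        sum_le_sum_of_subset_of_nonneg (subset_univ _) (fun _ _ _ => Nat.cast_nonneg _)
    _ ≤ W := sum_cod_row H W hW b hb x

open Classical in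
theorem quad_row (H : SimpleGraph V) [DecidableRel H.Adj] {N : ℕ} (W : ℕ)
    (hW : ∀ v, ∑ x ∈ H.neighborFinset v, (H.neighborFinset x).card ≤ W)
    (a b : Fin N → V) (ha : Function.Injective a) (hb : Function.Injective b)
    (hab : ∀ i j, a i ≠ b j) {K : ℝ} (hK : 0 < K) (i : Fin N) :
    ((univ.filter (fun v : Fin N × Fin N × Fin N => QQ H K a b i v.1 v.2.1 v.2.2)).card : ℝ)
      ≤ K * W / 4 := by
  set X : Fin N → Finset (Fin N) := fun j =>
    univ.filter (fun k => H.Adj (a i) (a k) ∧ H.Adj (b j) (a k)) with hX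
  set Y : Fin N → Finset (Fin N) := fun j =>
    univ.filter (fun l => H.Adj (a i) (b l) ∧ H.Adj (b j) (b l)) with hY
  have hXY : ∀ j, (X j).card + (Y j).card ≤ cod H (a i) (b j) := by
    intro j
    have h1 : (X j).card = ((X j).image a).card := (card_image_of_injective _ ha).symm
    have h2 : (Y j).card = ((Y j).image b).card := (card_image_of_injective _ hb).symm
    have hd : Disjoint ((X j).image a) ((Y j).image b) := by
      rw [disjoint_left]
      intro x hx hy
      obtain ⟨k, _, rfl⟩ := mem_image.1 hx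
      obtain ⟨l, _, hl⟩ := mem_image.1 hy
      exact hab k l hl.symm
    rw [h1, h2, ← card_union_of_disjoint hd]
    apply card_le_card
    intro x hx
    rw [mem_inter, SimpleGraph.mem_neighborFinset, SimpleGraph.mem_neighborFinset]
    rcases mem_union.1 hx with hx | hx
    · obtain ⟨k, hk, rfl⟩ := mem_image.1 hx
      exact (mem_filter.1 hk).2
    · obtain ⟨k, hk, rfl⟩ := mem_image.1 hx
      exact (mem_filter.1 hk).2
  have hsub : univ.filter (fun v : Fin N × Fin N × Fin N => QQ H K a b i v.1 v.2.1 v.2.2) ⊆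
      (univ.filter (fun j => (cod H (a i) (b j) : ℝ) ≤ K)).biUnion
        (fun j => ({j} : Finset (Fin N)) ×ˢ (X j ×ˢ Y j)) := by
    intro v hv
    have hq := (mem_filter.1 hv).2
    rw [mem_biUnion]
    refine ⟨v.1, ?_, ?_⟩
    · rw [mem_filter]; exact ⟨mem_univ _, hq.1⟩
    · rw [mem_product, mem_product]
      refine ⟨mem_singleton_self _, ?_, ?_⟩
      · rw [hX, mem_filter]; exact ⟨mem_univ _, hq.2.2.1, hq.2.2.2.2.1⟩
      · rw [hY, mem_filter]; exact ⟨mem_univ _, hq.2.2.2.1, hq.2.2.2.2.2⟩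
  have h1 : (univ.filter (fun v : Fin N × Fin N × Fin N => QQ H K a b i v.1 v.2.1 v.2.2)).card ≤
      ∑ j ∈ univ.filter (fun j => (cod H (a i) (b j) : ℝ) ≤ K), (X j).card * (Y j).card := by
    refine (card_le_card hsub).trans (card_biUnion_le.trans (sum_le_sum ?_))
    intro j _
    rw [card_product, card_product, card_singleton, one_mul]
  have h2 : ((univ.filter (fun v : Fin N × Fin N × Fin N =>
      QQ H K a b i v.1 v.2.1 v.2.2)).card : ℝ) ≤
      ∑ j ∈ univ.filter (fun j => (cod H (a i) (b j) : ℝ) ≤ K),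
        ((X j).card : ℝ) * ((Y j).card : ℝ) := by exact_mod_cast h1
  refine h2.trans ?_
  calc ∑ j ∈ univ.filter (fun j => (cod H (a i) (b j) : ℝ) ≤ K),
        ((X j).card : ℝ) * ((Y j).card : ℝ)
      ≤ ∑ j ∈ univ.filter (fun j => (cod H (a i) (b j) : ℝ) ≤ K),
        K / 4 * (cod H (a i) (b j) : ℝ) := by
        apply sum_le_sum
        intro j hj
        have hc := (mem_filter.1 hj).2
        have hxy : ((X j).card : ℝ) + ((Y j).card : ℝ) ≤ (cod H (a i) (b j) : ℝ) := by
          exact_mod_cast hXY j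
        have hx0 : (0 : ℝ) ≤ ((X j).card : ℝ) := Nat.cast_nonneg _
        have hy0 : (0 : ℝ) ≤ ((Y j).card : ℝ) := Nat.cast_nonneg _
        nlinarith [sq_nonneg (((X j).card : ℝ) - ((Y j).card : ℝ)),
          mul_nonneg (sub_nonneg.2 hxy) (add_nonneg hx0 hy0),
          mul_nonneg (sub_nonneg.2 hxy) (le_trans (add_nonneg hx0 hy0) hxy),
          mul_nonneg (sub_nonneg.2 hc) (le_trans (add_nonneg hx0 hy0) hxy)]
    _ = K / 4 * ∑ j ∈ univ.filter (fun j => (cod H (a i) (b j) : ℝ) ≤ K),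
          (cod H (a i) (b j) : ℝ) := by rw [mul_sum]
    _ ≤ K / 4 * ∑ j, (cod H (a i) (b j) : ℝ) := by
        apply mul_le_mul_of_nonneg_left _ (by positivity)
        exact sum_le_sum_of_subset_of_nonneg (subset_univ _) (fun _ _ _ => Nat.cast_nonneg _)
    _ ≤ K / 4 * W := by
        apply mul_le_mul_of_nonneg_left _ (by positivity)
        exact sum_cod_row H W hW b hb (a i)
    _ = K * W / 4 := by ring

open Classical in
theorem quad_col (H : SimpleGraph V) [DecidableRel H.Adj] {N : ℕ} (W : ℕ)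
    (hW : ∀ v, ∑ x ∈ H.neighborFinset v, (H.neighborFinset x).card ≤ W)
    (a b : Fin N → V) (ha : Function.Injective a) (hb : Function.Injective b)
    (hab : ∀ i j, a i ≠ b j) {K : ℝ} (hK : 0 < K) (j : Fin N) :
    ((univ.filter (fun v : Fin N × Fin N × Fin N => QQ H K a b v.1 j v.2.1 v.2.2)).card : ℝ)
      ≤ K * W / 4 := by
  have h := quad_row H W hW b a hb ha (fun i j => (hab j i).symm) hK j
  refine le_trans ?_ h
  have : (univ.filter (fun v : Fin N × Fin N × Fin N => QQ H K a b v.1 j v.2.1 v.2.2)).card ≤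
      (univ.filter (fun v : Fin N × Fin N × Fin N => QQ H K b a j v.1 v.2.1 v.2.2)).card := by
    apply card_le_card_of_injOn (fun v => (v.1, v.2.2, v.2.1))
    · intro v hv
      have hq := (mem_filter.1 hv).2
      exact mem_coe.2 (mem_filter.2 ⟨mem_univ _, QQ_swap _ _ _ _ hq⟩)
    · intro v _ w _ hvw
      simp only [Prod.mk.injEq] at hvw
      ext <;> simp [hvw]
  exact_mod_cast this

end Vale.Agent.P060
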