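import Vale.Agent.P060.Chi

namespace Vale.Agent.P060

open Finset

variable {V : Type*} [Fintype V] [DecidableEq V]

def Crit (G : SimpleGraph V) (X : Finset V) : Prop :=
  ∀ x ∈ X, chi G (X.erase x) < chi G X

def CoConn (G : SimpleGraph V) (X : Finset V) : Prop :=
  ∀ C : Finset V, C ⊆ X → C.Nonempty → C ≠ X → ∃ x ∈ C, ∃ y ∈ X \ C, ¬ G.Adj x y

structure Good (G : SimpleGraph V) (X U : Finset V) (F : Finset (Finset V)) : Prop where
  hU : U ⊆ X
  hsub : ∀ C ∈ F, C ⊆ X \ U
  hne : ∀ C ∈ F, C.Nonempty
  hdisj : ∀ C ∈ F, ∀ C' ∈ F, C ≠ C' → Disjoint C C'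
  hcomp : ∀ C ∈ F, ∀ x ∈ C, ∀ y ∈ (X \ U) \ C, G.Adj x y
  hcrit : ∀ C ∈ F, Crit G C

theorem chi_insert_crit {G : SimpleGraph V} {C : Finset V} (hC : Crit G C) {u x : V}
    (hx : x ∈ C) (hux : ¬ G.Adj u x) : chi G (insert u C) ≤ chi G C := by
  have h1 : chi G {u, x} ≤ 1 := by
    apply chi_indep
    intro a ha b hb
    rw [mem_insert, mem_singleton] at ha hb
    rcases ha with rfl | rfl <;> rcases hb with rfl | rfl
    · exact G.loopless.irrefl _
    · exact hux
    · exact fun h => hux h.symm
    · exact G.loopless.irrefl _
  have h2 := hC x hx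
  have h3 : insert u C = C.erase x ∪ {u, x} := by
    ext y
    simp only [mem_insert, mem_union, mem_erase, mem_singleton]
    constructor
    · rintro (rfl | h)
      · right; left; rfl
      · by_cases hyx : y = x
        · right; right; exact hyx
        · left; exact ⟨hyx, h⟩
    · rintro (⟨_, h⟩ | rfl | rfl)
      · right; exact h
      · left; rfl
      · right; exact hx
  have h4 := chi_union_le G (C.erase x) {u, x}
  rw [h3]
  omega

theorem chi_sdiff_ge {G : SimpleGraph V} {X U : Finset V} {F : Finset (Finset V)}
    (hg : Good G X U F) {ι : Type*} [DecidableEq ι] (f : ι → Finset V)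
    (hf : Function.Injective f) (hfF : ∀ i, f i ∈ F) (T : Finset ι) :
    chi G ((X \ U) \ T.biUnion f) + ∑ t ∈ T, chi G (f t) ≤ chi G (X \ U) := by
  induction T using Finset.induction_on with
  | empty => simp
  | insert t T ht ih =>
    rw [biUnion_insert, sum_insert ht]
    have h1 : f t ⊆ (X \ U) \ T.biUnion f := by
      intro x hx
      rw [mem_sdiff, mem_biUnion]
      refine ⟨hg.hsub _ (hfF t) hx, ?_⟩
      rintro ⟨i, hi, hxi⟩
      have hne : f t ≠ f i := fun h => ht (hf h ▸ hi)
      exact disjoint_left.1 (hg.hdisj _ (hfF t) _ (hfF i) hne) hx hxi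
    have h2 : (X \ U) \ T.biUnion f = f t ∪ ((X \ U) \ (f t ∪ T.biUnion f)) := by
      ext y
      simp only [mem_sdiff, mem_union]
      constructor
      · intro h
        by_cases hy : y ∈ f t
        · left; exact hy
        · right; exact ⟨h.1, fun h' => h'.elim hy h.2⟩
      · rintro (h | h)
        · have := h1 h
          rw [mem_sdiff, mem_sdiff] at this
          exact this
        · exact ⟨h.1, fun h' => h.2 (Or.inr h')⟩
    have h3 : chi G (f t) + chi G ((X \ U) \ (f t ∪ T.biUnion f)) ≤
        chi G (f t ∪ ((X \ U) \ (f t ∪ T.biUnion f))) := by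
      apply chi_join
      intro x hx y hy
      apply hg.hcomp _ (hfF t) x hx
      rw [mem_sdiff] at hy ⊢
      exact ⟨hy.1, fun h => hy.2 (mem_union_left _ h)⟩
    rw [← h2] at h3
    omega

theorem card_lt_of_good {G : SimpleGraph V} {X : Finset V} (hcrit : Crit G X)
    (hconn : CoConn G X) : ∀ n : ℕ, ∀ U : Finset V, ∀ F : Finset (Finset V), U.card = n →
      U.Nonempty → Good G X U F → F.card + 1 ≤ U.card := by
  intro n
  induction n using Nat.strong_induction_on with
  | _ n ih =>
    intro U F hn hUne hg
    classical
    by_contra hcon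
    set t : U → Finset (Finset V) := fun u => F.filter (fun C => ∃ x ∈ C, ¬ G.Adj u.1 x) with ht
    by_cases hall : ∀ s : Finset U, s.card ≤ (s.biUnion t).card
    · obtain ⟨f, hf, hft⟩ := (Finset.all_card_le_biUnion_card_iff_exists_injective t).1 hall
      have hfF : ∀ i, f i ∈ F := fun i => (mem_filter.1 (hft i)).1
      have h1 := chi_sdiff_ge hg f hf hfF univ
      have h2 : chi G X ≤ chi G ((X \ U) \ univ.biUnion f) +
          ∑ u : U, chi G (insert u.1 (f u)) := by
        have h3 : X ⊆ ((X \ U) \ univ.biUnion f) ∪ univ.biUnion (fun u : U => insert u.1 (f u)) := by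
          intro x hx
          rw [mem_union]
          by_cases hxU : x ∈ U
          · right
            rw [mem_biUnion]
            exact ⟨⟨x, hxU⟩, mem_univ _, mem_insert_self _ _⟩
          · by_cases hxf : x ∈ univ.biUnion f
            · right
              rw [mem_biUnion] at hxf ⊢
              obtain ⟨u, hu, hxu⟩ := hxf
              exact ⟨u, hu, mem_insert_of_mem hxu⟩
            · left
              rw [mem_sdiff, mem_sdiff]
              exact ⟨⟨hx, hxU⟩, hxf⟩
        refine (chi_mono h3).trans ((chi_union_le G _ _).trans ?_)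
        exact Nat.add_le_add_left (chi_biUnion_le G _ _) _
      have h4 : ∑ u : U, chi G (insert u.1 (f u)) ≤ ∑ u : U, chi G (f u) := by
        apply sum_le_sum
        intro u _
        obtain ⟨x, hx, hux⟩ := (mem_filter.1 (hft u)).2
        exact chi_insert_crit (hg.hcrit _ (hfF u)) hx hux
      obtain ⟨u0, hu0⟩ := hUne
      have h5 : chi G (X \ U) ≤ chi G (X.erase u0) := by
        apply chi_mono
        intro x hx
        rw [mem_sdiff] at hx
        rw [mem_erase]
        exact ⟨fun h => hx.2 (h ▸ hu0), hx.1⟩
      have h6 := hcrit u0 (hg.hU hu0)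
      omega
    · push Not at hall
      obtain ⟨T, hT⟩ := hall
      set T' : Finset V := T.map (Function.Embedding.subtype _) with hT'
      have hT'card : T'.card = T.card := card_map _
      have hT'U : T' ⊆ U := by
        intro x hx
        rw [hT', mem_map] at hx
        obtain ⟨u, _, rfl⟩ := hx
        exact u.2
      have hTne : T.Nonempty := by
        rw [← card_pos]; omega
      have hT'ne : T'.Nonempty := by
        rw [← card_pos]; omega
      set F2 : Finset (Finset V) := F \ T.biUnion t with hF2
      have hg2 : Good G X (U \ T') F2 := by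
        have hF2F : F2 ⊆ F := sdiff_subset
        refine ⟨sdiff_subset.trans hg.hU, ?_, fun C hC => hg.hne C (hF2F hC),
          fun C hC C' hC' => hg.hdisj C (hF2F hC) C' (hF2F hC'), ?_,
          fun C hC => hg.hcrit C (hF2F hC)⟩
        · intro C hC x hx
          have := hg.hsub C (hF2F hC) hx
          rw [mem_sdiff] at this ⊢
          exact ⟨this.1, fun h => this.2 (sdiff_subset h)⟩
        · intro C hC x hx y hy
          rw [mem_sdiff, mem_sdiff] at hy
          by_cases hyU : y ∈ U
          · have hyT : y ∈ T' := by
              by_contra h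
              exact hy.1.2 (mem_sdiff.2 ⟨hyU, h⟩)
            rw [hT', mem_map] at hyT
            obtain ⟨u, huT, hu⟩ := hyT
            by_contra hadj
            have hCt : C ∈ t u := by
              rw [ht]
              apply mem_filter.2
              refine ⟨hF2F hC, x, hx, ?_⟩
              intro h
              apply hadj
              have : (u : V) = y := hu
              rw [← this]
              exact h.symm
            have := (mem_sdiff.1 hC).2
            exact this (mem_biUnion.2 ⟨u, huT, hCt⟩)
          · exact hg.hcomp C (hF2F hC) x hx y (mem_sdiff.2 ⟨mem_sdiff.2 ⟨hy.1.1, hyU⟩, hy.2⟩)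
      have hFcard : F.card ≤ F2.card + (T.biUnion t).card := by
        rw [hF2]
        have := le_card_sdiff (T.biUnion t) F
        omega
      have hUcard : (U \ T').card = U.card - T'.card := card_sdiff_of_subset hT'U
      have hTle : T'.card ≤ U.card := card_le_card hT'U
      by_cases hU2 : (U \ T').Nonempty
      · have := ih (U \ T').card (by
          have : 0 < T'.card := card_pos.2 hT'ne
          have : 0 < U.card := card_pos.2 hUne
          omega) (U \ T') F2 rfl hU2 hg2
        omega
      · have hU2e : (U \ T').card = 0 := by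
          rw [not_nonempty_iff_eq_empty] at hU2
          rw [hU2]; rfl
        have hF2e : F2 = ∅ := by
          by_contra hF2ne
          obtain ⟨C, hC⟩ := nonempty_iff_ne_empty.2 hF2ne
          have hCX : C ⊆ X := (hg2.hsub C hC).trans sdiff_subset
          obtain ⟨y0, hy0⟩ := hT'ne
          have hCF : C ∈ F := (mem_sdiff.1 hC).1
          have hCne : C ≠ X := by
            intro h
            have h1 : y0 ∈ X := hg.hU (hT'U hy0)
            rw [← h] at h1
            have := hg.hsub C hCF h1
            exact (mem_sdiff.1 this).2 (hT'U hy0)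
          obtain ⟨x, hx, y, hy, hxy⟩ := hconn C hCX (hg2.hne C hC) hCne
          apply hxy
          apply hg2.hcomp C hC x hx
          rw [not_nonempty_iff_eq_empty] at hU2
          rw [hU2, sdiff_empty]
          exact hy
        rw [hF2e] at hFcard
        simp only [card_empty] at hFcard
        omega

theorem gallai_aux (G : SimpleGraph V) : ∀ n : ℕ, ∀ X : Finset V, X.card = n →
    (∃ U F, Good G X U F ∧ 2 * chi G X + U.card ≤ X.card + F.card) ∧
    (X.Nonempty → Crit G X → CoConn G X → 2 * chi G X ≤ X.card + 1) := by
  intro n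
  induction n using Nat.strong_induction_on with
  | _ n ih =>
    intro X hn
    have hpart2 : X.Nonempty → Crit G X → CoConn G X → 2 * chi G X ≤ X.card + 1 := by
      rintro ⟨v, hv⟩ hcrit hconn
      have hlt : (X.erase v).card < n := by
        rw [card_erase_of_mem hv]
        have : 0 < X.card := card_pos.2 ⟨v, hv⟩
        omega
      obtain ⟨⟨U, F, hg, hle⟩, _⟩ := ih _ hlt (X.erase v) rfl
      have heq : X \ insert v U = (X.erase v) \ U := by
        ext y
        simp only [mem_sdiff, mem_insert, mem_erase, not_or]
        tauto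
      have hvU : v ∉ U := fun h => (notMem_erase v X) (hg.hU h)
      have hg' : Good G X (insert v U) F := by
        refine ⟨?_, ?_, hg.hne, hg.hdisj, ?_, hg.hcrit⟩
        · intro y hy
          rcases mem_insert.1 hy with rfl | hy
          · exact hv
          · exact erase_subset _ _ (hg.hU hy)
        · rw [heq]; exact hg.hsub
        · rw [heq]; exact hg.hcomp
      have h1 := card_lt_of_good hcrit hconn _ (insert v U) F rfl (insert_nonempty _ _) hg'
      rw [card_insert_of_notMem hvU] at h1
      have h2 := chi_insert_le G (X.erase v) v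
      rw [insert_erase hv] at h2
      rw [card_erase_of_mem hv] at hle
      have : 0 < X.card := card_pos.2 ⟨v, hv⟩
      omega
    refine ⟨?_, hpart2⟩
    by_cases hXne : X.Nonempty
    swap
    · rw [not_nonempty_iff_eq_empty] at hXne
      subst hXne
      exact ⟨∅, ∅, ⟨subset_rfl, by simp, by simp, by simp, by simp, by simp⟩, by
        simp [chi_empty]⟩
    by_cases hcrit : Crit G X
    swap
    · unfold Crit at hcrit
      push Not at hcrit
      obtain ⟨v, hv, hle⟩ := hcrit
      have hlt : (X.erase v).card < n := by
        rw [card_erase_of_mem hv]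
        have : 0 < X.card := card_pos.2 ⟨v, hv⟩
        omega
      obtain ⟨⟨U, F, hg, hle'⟩, _⟩ := ih _ hlt (X.erase v) rfl
      have heq : X \ insert v U = (X.erase v) \ U := by
        ext y
        simp only [mem_sdiff, mem_insert, mem_erase, not_or]
        tauto
      have hvU : v ∉ U := fun h => (notMem_erase v X) (hg.hU h)
      have hg' : Good G X (insert v U) F := by
        refine ⟨?_, ?_, hg.hne, hg.hdisj, ?_, hg.hcrit⟩
        · intro y hy
          rcases mem_insert.1 hy with rfl | hy
          · exact hv
          · exact erase_subset _ _ (hg.hU hy)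
        · rw [heq]; exact hg.hsub
        · rw [heq]; exact hg.hcomp
      refine ⟨insert v U, F, hg', ?_⟩
      rw [card_insert_of_notMem hvU]
      rw [card_erase_of_mem hv] at hle'
      have : 0 < X.card := card_pos.2 ⟨v, hv⟩
      omega
    by_cases hconn : CoConn G X
    · refine ⟨∅, {X}, ⟨empty_subset _, ?_, ?_, ?_, ?_, ?_⟩, ?_⟩
      · intro C hC
        rw [mem_singleton] at hC
        subst hC
        rw [sdiff_empty]
      · intro C hC
        rw [mem_singleton] at hC
        subst hC
        exact hXne
      · intro C hC C' hC' hne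
        rw [mem_singleton] at hC hC'
        exact absurd (hC.trans hC'.symm) hne
      · intro C hC x hx y hy
        rw [mem_singleton] at hC
        subst hC
        simp at hy
      · intro C hC
        rw [mem_singleton] at hC
        subst hC
        exact hcrit
      · have := hpart2 hXne hcrit hconn
        simpa using this
    · unfold CoConn at hconn
      push Not at hconn
      obtain ⟨C, hCX, hCne, hCneX, hCadj⟩ := hconn
      have hc1 : C.card < n := by
        rw [← hn]
        exact card_lt_card (Finset.ssubset_iff_subset_ne.2 ⟨hCX, hCneX⟩)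
      have hc2 : (X \ C).card < n := by
        rw [card_sdiff_of_subset hCX]
        have : 0 < C.card := card_pos.2 hCne
        omega
      obtain ⟨⟨U1, F1, hg1, hle1⟩, _⟩ := ih _ hc1 C rfl
      obtain ⟨⟨U2, F2, hg2, hle2⟩, _⟩ := ih _ hc2 (X \ C) rfl
      have hU12 : Disjoint U1 U2 := by
        rw [disjoint_left]
        intro x hx hx'
        exact (mem_sdiff.1 (hg2.hU hx')).2 (hg1.hU hx)
      have hcross : ∀ A ∈ F1, ∀ B ∈ F2, Disjoint A B := by
        intro A hA B hB
        rw [disjoint_left]
        intro x hx hx'
        exact (mem_sdiff.1 (mem_sdiff.1 (hg2.hsub B hB hx')).1).2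
          (mem_sdiff.1 (hg1.hsub A hA hx)).1
      have hF12 : Disjoint F1 F2 := by
        rw [disjoint_left]
        intro A hA hA'
        obtain ⟨x, hx⟩ := hg1.hne A hA
        exact disjoint_left.1 (hcross A hA A hA') hx hx
      refine ⟨U1 ∪ U2, F1 ∪ F2, ⟨?_, ?_, ?_, ?_, ?_, ?_⟩, ?_⟩
      · exact union_subset (hg1.hU.trans hCX) (hg2.hU.trans sdiff_subset)
      · intro A hA x hx
        rw [mem_sdiff, mem_union]
        rcases mem_union.1 hA with hA | hA
        · have := mem_sdiff.1 (hg1.hsub A hA hx)
          refine ⟨hCX this.1, ?_⟩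
          rintro (h | h)
          · exact this.2 h
          · exact (mem_sdiff.1 (hg2.hU h)).2 this.1
        · have := mem_sdiff.1 (hg2.hsub A hA hx)
          have h2 := mem_sdiff.1 this.1
          refine ⟨h2.1, ?_⟩
          rintro (h | h)
          · exact h2.2 (hg1.hU h)
          · exact this.2 h
      · intro A hA
        rcases mem_union.1 hA with hA | hA
        · exact hg1.hne A hA
        · exact hg2.hne A hA
      · intro A hA B hB hne
        rcases mem_union.1 hA with hA | hA <;> rcases mem_union.1 hB with hB | hB
        · exact hg1.hdisj A hA B hB hne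
        · exact hcross A hA B hB
        · exact (hcross B hB A hA).symm
        · exact hg2.hdisj A hA B hB hne
      · intro A hA x hx y hy
        rw [mem_sdiff, mem_sdiff, mem_union, not_or] at hy
        rcases mem_union.1 hA with hA | hA
        · have hxC := (mem_sdiff.1 (hg1.hsub A hA hx)).1
          by_cases hyC : y ∈ C
          · exact hg1.hcomp A hA x hx y (mem_sdiff.2 ⟨mem_sdiff.2 ⟨hyC, hy.1.2.1⟩, hy.2⟩)
          · exact hCadj x hxC y (mem_sdiff.2 ⟨hy.1.1, hyC⟩)
        · have hxC := (mem_sdiff.1 (hg2.hsub A hA hx)).1
          by_cases hyC : y ∈ C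
          · exact (hCadj y hyC x hxC).symm
          · exact hg2.hcomp A hA x hx y
              (mem_sdiff.2 ⟨mem_sdiff.2 ⟨mem_sdiff.2 ⟨hy.1.1, hyC⟩, hy.1.2.2⟩, hy.2⟩)
      · intro A hA
        rcases mem_union.1 hA with hA | hA
        · exact hg1.hcrit A hA
        · exact hg2.hcrit A hA
      · rw [card_union_of_disjoint hU12, card_union_of_disjoint hF12]
        have h1 := chi_union_le G C (X \ C)
        rw [union_sdiff_of_subset hCX] at h1
        rw [card_sdiff_of_subset hCX] at hle2
        have := card_le_card hCX
        omega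

end Vale.Agent.P060
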