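import Vale.Agent.P060.Greedy

namespace Vale.Agent.P060

open Finset

theorem induce_clique_connected {V : Type*} {G : SimpleGraph V} {B : Set V} (hne : B.Nonempty)
    (h : ∀ x ∈ B, ∀ y ∈ B, x ≠ y → G.Adj x y) : (G.induce B).Connected := by
  obtain ⟨b, hb⟩ := hne
  rw [SimpleGraph.connected_iff]
  refine ⟨?_, ⟨⟨b, hb⟩⟩⟩
  rintro ⟨x, hx⟩ ⟨y, hy⟩
  by_cases hxy : x = y
  · subst hxy
    exact SimpleGraph.Reachable.refl _
  · have : (G.induce B).Adj ⟨x, hx⟩ ⟨y, hy⟩ := h x hx y hy hxy
    exact this.reachable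

variable {V : Type*} [Fintype V] [DecidableEq V]

theorem greedy_minor (G : SimpleGraph V) [DecidableRel G.Adj] (D m : ℕ)
    (hD : ∀ v, Gᶜ.degree v ≤ D) (hm : D ^ 4 < m ^ 3) (t : ℕ) (S : Finset V)
    (hS : ∀ s ∈ S, ∀ s' ∈ S, s ≠ s' → G.Adj s s')
    (hA : 4 * t + 3 * (D + 1) + m + S.card ≤ Fintype.card V) :
    HasCliqueMinor G (t + S.card) := by
  have hA' : 4 * t + 3 * (D + 1) + m ≤ ((univ : Finset V) \ S).card := by
    rw [card_sdiff_of_subset (subset_univ S), card_univ]
    omega
  obtain ⟨B, h1, h2, h3, h4, h5, h6⟩ := greedy Gᶜ D m hD hm t (univ \ S) S hA'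
  have hadj : ∀ x y, x ≠ y → ¬ Gᶜ.Adj x y → G.Adj x y := by
    intro x y hxy h
    by_contra hG
    exact h ((SimpleGraph.compl_adj G x y).2 ⟨hxy, hG⟩)
  have hnS : ∀ i, ∀ x ∈ B i, x ∉ S := fun i x hx => (mem_sdiff.1 (h2 i hx)).2
  let E : Fin t ⊕ S → Set V :=
    Sum.elim (fun i => ((B i : Finset V) : Set V)) (fun s : S => ({s.1} : Set V))
  refine hasCliqueMinor_of_fintype E ?_ ?_ ?_ ?_
  · rintro (i | s)
    · apply induce_clique_connected
      · exact (h1 i).to_set
      · intro x hx y hy hxy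
        exact hadj x y hxy (h3 i x hx y hy hxy)
    · exact induce_singleton_connected _
  · rintro (i | s) (j | s') hne
    · have hij : i ≠ j := fun h => hne (by rw [h])
      exact disjoint_coe.2 (h4 i j hij)
    · show Disjoint ((B i : Finset V) : Set V) ({s'.1} : Set V)
      rw [Set.disjoint_singleton_right]
      exact fun h => hnS i _ h s'.2
    · show Disjoint ({s.1} : Set V) ((B j : Finset V) : Set V)
      rw [Set.disjoint_singleton_left]
      exact fun h => hnS j _ h s.2
    · have hss : s.1 ≠ s'.1 := fun h => hne (by rw [Subtype.ext h])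
      show Disjoint ({s.1} : Set V) ({s'.1} : Set V)
      rw [Set.disjoint_singleton]
      exact hss
  · rintro (i | s) (j | s') hne
    · have hij : i ≠ j := fun h => hne (by rw [h])
      obtain ⟨x, hx, y, hy, hxy⟩ := h5 i j hij
      exact ⟨x, hx, y, hy, hadj x y (fun h => disjoint_left.1 (h4 i j hij) hx (h ▸ hy)) hxy⟩
    · obtain ⟨x, hx, hsx⟩ := h6 i s'.1 s'.2
      exact ⟨x, hx, s'.1, rfl, (hadj s'.1 x (fun h => hnS i x hx (h ▸ s'.2)) hsx).symm⟩
    · obtain ⟨x, hx, hsx⟩ := h6 j s.1 s.2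
      exact ⟨s.1, rfl, x, hx, hadj s.1 x (fun h => hnS j x hx (h ▸ s.2)) hsx⟩
    · have hss : s.1 ≠ s'.1 := fun h => hne (by rw [Subtype.ext h])
      exact ⟨s.1, rfl, s'.1, rfl, hS s.1 s.2 s'.1 s'.2 hss⟩
  · simp

theorem walk_bound (G : SimpleGraph V) [DecidableRel G.Adj] (D : ℕ)
    (hD : ∀ v, Gᶜ.degree v ≤ D) (v : V) :
    ∑ x ∈ Gᶜ.neighborFinset v, Gᶜ.degree x ≤ D ^ 2 := by
  calc ∑ x ∈ Gᶜ.neighborFinset v, Gᶜ.degree x ≤ ∑ _x ∈ Gᶜ.neighborFinset v, D :=
        sum_le_sum (fun x _ => hD x)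
    _ = Gᶜ.degree v * D := by
        rw [sum_const, smul_eq_mul, SimpleGraph.card_neighborFinset_eq_degree]
    _ ≤ D * D := Nat.mul_le_mul_right _ (hD v)
    _ = D ^ 2 := by ring

theorem omega_gap (G : SimpleGraph V) [DecidableRel G.Adj] (D k : ℕ)
    (hD : ∀ v, Gᶜ.degree v ≤ D) (h2 : 8000000 * D ^ 4 ≤ k ^ 3)
    (hk : G.cliqueNum + k ≤ Fintype.card V) :
    HasCliqueMinor G (chi G univ) := by
  rcases Nat.eq_zero_or_pos D with hD0 | hD0
  · subst hD0
    refine (complete_minor (complete_of_degree_zero hD)).mono ?_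
    refine (chi_le (f := fun v => (Fintype.equivFin V v : ℕ)) ?_).trans ?_
    · intro x _ y _ hxy h
      have h' : Fintype.equivFin V x = Fintype.equivFin V y := Fin.ext h
      exact hxy.ne ((Fintype.equivFin V).injective h')
    · exact card_image_le.trans (le_of_eq card_univ)
  · have hk200 : 200 * D ≤ k := by
      by_contra hlt
      push Not at hlt
      have e1 : k ^ 3 < (200 * D) ^ 3 := Nat.pow_lt_pow_left hlt (by norm_num)
      have e2 : D ^ 3 ≤ D ^ 4 := Nat.pow_le_pow_right hD0 (by norm_num)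
      have e3 : (200 * D) ^ 3 = 8000000 * D ^ 3 := by ring
      omega
    have hVpos : 0 < Fintype.card V := by omega
    obtain ⟨⟨U, F, hg, hle⟩, _⟩ := gallai_aux G _ univ rfl
    classical
    have hGG : Gᶜᶜ = G := compl_compl G
    obtain ⟨v0⟩ := Fintype.card_pos_iff.1 hVpos
    let r : Finset V → V := fun C => if h : C.Nonempty then h.choose else v0
    have hr : ∀ C ∈ F, r C ∈ C := by
      intro C hC
      have hne := hg.hne C hC
      show (if h : C.Nonempty then h.choose else _) ∈ C
      rw [dif_pos hne]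
      exact hne.choose_spec
    have hinj : Set.InjOn r F := by
      intro C hC C' hC' h
      by_contra hne
      exact disjoint_left.1 (hg.hdisj C hC C' hC' hne) (hr C hC) (h ▸ hr C' hC')
    obtain ⟨S, hS⟩ : ∃ S, S = F.image r := ⟨_, rfl⟩
    have hScard : S.card = F.card := by rw [hS]; exact card_image_of_injOn hinj
    have hSU : S ⊆ univ \ U := by
      intro s hs
      rw [hS] at hs
      obtain ⟨C, hC, rfl⟩ := mem_image.1 hs
      exact hg.hsub C hC (hr C hC)
    have hadj : ∀ s ∈ S, ∀ s' ∈ S, s ≠ s' → G.Adj s s' := by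
      intro s hs s' hs' hne
      rw [hS] at hs hs'
      obtain ⟨C, hC, rfl⟩ := mem_image.1 hs
      obtain ⟨C', hC', rfl⟩ := mem_image.1 hs'
      have hCC : C ≠ C' := fun h => hne (by rw [h])
      apply hg.hcomp C hC _ (hr C hC)
      rw [mem_sdiff]
      refine ⟨hg.hsub C' hC' (hr C' hC'), ?_⟩
      intro h
      exact disjoint_left.1 (hg.hdisj C hC C' hC' hCC) h (hr C' hC')
    have hclique : S.card ≤ G.cliqueNum := by
      apply SimpleGraph.IsClique.card_le_cliqueNum
      intro s hs s' hs' hne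
      exact hadj s hs s' hs' hne
    obtain ⟨R0, hR0⟩ : ∃ R0, R0 = (univ \ U) \ S := ⟨_, rfl⟩
    have hR0card : R0.card + S.card + U.card = Fintype.card V := by
      rw [hR0, card_sdiff_of_subset hSU, card_sdiff_of_subset (subset_univ U), card_univ]
      have e1 := card_le_card hSU
      rw [card_sdiff_of_subset (subset_univ U), card_univ] at e1
      have e2 := card_le_card (subset_univ U)
      rw [card_univ] at e2
      omega
    obtain ⟨N, hN⟩ : ∃ N, N = R0.card / 2 := ⟨_, rfl⟩
    obtain ⟨R, hRR0, hR⟩ := exists_subset_card_eq (s := R0) (n := 2 * N) (by omega)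
    have hchi : chi G univ ≤ N + S.card := by
      rw [card_univ] at hle
      omega
    by_cases hNbig : 91125 * D ^ 4 ≤ N ^ 3
    · have hSR : Disjoint S R := by
        rw [disjoint_left]
        intro x hx hx'
        have := hRR0 hx'
        rw [hR0, mem_sdiff] at this
        exact this.2 hx
      have hN45 : 45 * D ≤ N := by
        by_contra hlt
        push Not at hlt
        have e1 : N ^ 3 < (45 * D) ^ 3 := Nat.pow_lt_pow_left hlt (by norm_num)
        have e2 : D ^ 3 ≤ D ^ 4 := Nat.pow_le_pow_right hD0 (by norm_num)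
        have e3 : (45 * D) ^ 3 = 91125 * D ^ 3 := by ring
        omega
      have hN68 : 6800 * (D ^ 2) ^ 2 ≤ N ^ 3 := by
        have e1 : (D ^ 2) ^ 2 = D ^ 4 := by ring
        rw [e1]
        omega
      have := core_nat Gᶜ D (D ^ 2) hD0 hD (walk_bound G D hD) S R hSR N hR
        (by
          intro s hs s' hs' hne h
          rw [SimpleGraph.compl_adj] at h
          exact h.2 (hadj s hs s' hs' hne))
        (by
          intro x hx s hs s' hs' h h'
          rw [SimpleGraph.compl_adj] at h h'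
          have hx0 := hRR0 hx
          rw [hR0, mem_sdiff] at hx0
          rw [hS] at hs hs'
          obtain ⟨C, hC, rfl⟩ := mem_image.1 hs
          obtain ⟨C', hC', rfl⟩ := mem_image.1 hs'
          have hxC : x ∈ C := by
            by_contra hxC
            exact h.2 (hg.hcomp C hC _ (hr C hC) x (mem_sdiff.2 ⟨hx0.1, hxC⟩))
          have hxC' : x ∈ C' := by
            by_contra hxC
            exact h'.2 (hg.hcomp C' hC' _ (hr C' hC') x (mem_sdiff.2 ⟨hx0.1, hxC⟩))
          by_contra hne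
          have hCC : C ≠ C' := fun h => hne (by rw [h])
          exact disjoint_left.1 (hg.hdisj C hC C' hC' hCC) hxC hxC')
        hN45 hN68
      rw [hGG] at this
      exact this.mono hchi
    · push Not at hNbig
      have h40 : 40 * N < 9 * k := by
        by_contra hge
        push Not at hge
        have e1 : (9 * k) ^ 3 ≤ (40 * N) ^ 3 := Nat.pow_le_pow_left hge 3
        have e2 : (9 * k) ^ 3 = 729 * k ^ 3 := by ring
        have e3 : (40 * N) ^ 3 = 64000 * N ^ 3 := by ring
        omega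
      have hm : D ^ 4 < (k / 20) ^ 3 := by
        have e1 : k ≤ 40 * (k / 20) := by omega
        have e2 : k ^ 3 ≤ (40 * (k / 20)) ^ 3 := Nat.pow_le_pow_left e1 3
        have e3 : (40 * (k / 20)) ^ 3 = 64000 * (k / 20) ^ 3 := by ring
        have e4 : 0 < D ^ 4 := Nat.pow_pos hD0
        omega
      refine (greedy_minor G D (k / 20) hD hm N S hadj ?_).mono hchi
      omega

end Vale.Agent.P060
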