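import Vale.Agent.P060.Main

namespace Vale.Agent.P060

open Finset

variable {V : Type*} [Fintype V] [DecidableEq V]

theorem step (H : SimpleGraph V) [DecidableRel H.Adj] (D : ℕ)
    (hD : ∀ v, (H.neighborFinset v).card ≤ D) (A T : Finset V) (hA : A.Nonempty) :
    ∃ x ∈ A, A.card * (T ∩ H.neighborFinset x).card ≤ T.card * D := by
  by_contra hcon
  push Not at hcon
  have h1 : ∑ x ∈ A, T.card * D < ∑ x ∈ A, A.card * (T ∩ H.neighborFinset x).card :=
    sum_lt_sum_of_nonempty hA hcon
  rw [sum_const, smul_eq_mul, ← mul_sum] at h1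
  have h2 : ∑ x ∈ A, (T ∩ H.neighborFinset x).card = ∑ t ∈ T, (A ∩ H.neighborFinset t).card := by
    have e1 : ∀ x, (T ∩ H.neighborFinset x).card = ∑ t ∈ T, if H.Adj x t then 1 else 0 := by
      intro x
      rw [← sum_filter, sum_const, smul_eq_mul, mul_one]
      congr 1
      ext t
      simp
    have e2 : ∀ t, (A ∩ H.neighborFinset t).card = ∑ x ∈ A, if H.Adj x t then 1 else 0 := by
      intro t
      rw [← sum_filter, sum_const, smul_eq_mul, mul_one]
      congr 1
      ext x
      simp [SimpleGraph.adj_comm]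
    simp_rw [e1, e2]
    exact sum_comm
  have h3 : ∑ t ∈ T, (A ∩ H.neighborFinset t).card ≤ T.card * D := by
    calc ∑ t ∈ T, (A ∩ H.neighborFinset t).card ≤ ∑ _t ∈ T, D :=
          sum_le_sum (fun t _ => (card_le_card inter_subset_right).trans (hD t))
      _ = T.card * D := by rw [sum_const, smul_eq_mul]
  rw [h2] at h1
  have h4 := Nat.lt_of_mul_lt_mul_left h1
  omega

theorem remove_card (H : SimpleGraph V) [DecidableRel H.Adj] (D : ℕ)
    (hD : ∀ v, (H.neighborFinset v).card ≤ D) (A : Finset V) (x : V) :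
    A.card ≤ (A \ insert x (H.neighborFinset x)).card + (D + 1) := by
  have h1 := le_card_sdiff (insert x (H.neighborFinset x)) A
  have h2 := card_insert_le x (H.neighborFinset x)
  have h3 := hD x
  omega

theorem greedy_one (H : SimpleGraph V) [DecidableRel H.Adj] (D m : ℕ)
    (hD : ∀ v, (H.neighborFinset v).card ≤ D) (A T : Finset V)
    (hA : 3 * (D + 1) + m ≤ A.card) (hm : D ^ 4 < m ^ 3) :
    ∃ B : Finset V, ∃ b ∈ B, B ⊆ A ∧ B.card ≤ 4 ∧
      (∀ x ∈ B, ∀ y ∈ B, x ≠ y → ¬ H.Adj x y) ∧ (∀ t ∈ T, ∃ x ∈ B, ¬ H.Adj t x) := by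
  have hm0 : 0 < m := by
    rcases Nat.eq_zero_or_pos m with h | h
    · subst h; simp at hm
    · exact h
  have hne1 : A.Nonempty := by rw [← card_pos]; omega
  obtain ⟨x1, hx1⟩ := hne1
  set T1 := T ∩ H.neighborFinset x1 with hT1
  have hT1c : T1.card ≤ D := (card_le_card inter_subset_right).trans (hD x1)
  set A2 := A \ insert x1 (H.neighborFinset x1) with hA2
  have hA2c : A.card ≤ A2.card + (D + 1) := remove_card H D hD A x1
  have hne2 : A2.Nonempty := by rw [← card_pos]; omega
  obtain ⟨x2, hx2, h2⟩ := step H D hD A2 T1 hne2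
  set T2 := T1 ∩ H.neighborFinset x2 with hT2
  set A3 := A2 \ insert x2 (H.neighborFinset x2) with hA3
  have hA3c : A2.card ≤ A3.card + (D + 1) := remove_card H D hD A2 x2
  have hne3 : A3.Nonempty := by rw [← card_pos]; omega
  obtain ⟨x3, hx3, h3⟩ := step H D hD A3 T2 hne3
  set T3 := T2 ∩ H.neighborFinset x3 with hT3
  set A4 := A3 \ insert x3 (H.neighborFinset x3) with hA4
  have hA4c : A3.card ≤ A4.card + (D + 1) := remove_card H D hD A3 x3
  have hne4 : A4.Nonempty := by rw [← card_pos]; omega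
  obtain ⟨x4, hx4, h4⟩ := step H D hD A4 T3 hne4
  set T4 := T3 ∩ H.neighborFinset x4 with hT4
  have m2 : m ≤ A2.card := by omega
  have m3 : m ≤ A3.card := by omega
  have m4 : m ≤ A4.card := by omega
  have k2 : m * T2.card ≤ D * D :=
    (Nat.mul_le_mul_right _ m2).trans (h2.trans (Nat.mul_le_mul_right _ hT1c))
  have k3 : m * T3.card ≤ T2.card * D := (Nat.mul_le_mul_right _ m3).trans h3
  have k4 : m * T4.card ≤ T3.card * D := (Nat.mul_le_mul_right _ m4).trans h4
  have k5 : m ^ 3 * T4.card ≤ D ^ 4 := by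
    calc m ^ 3 * T4.card = m ^ 2 * (m * T4.card) := by ring
      _ ≤ m ^ 2 * (T3.card * D) := Nat.mul_le_mul_left _ k4
      _ = m * D * (m * T3.card) := by ring
      _ ≤ m * D * (T2.card * D) := Nat.mul_le_mul_left _ k3
      _ = D ^ 2 * (m * T2.card) := by ring
      _ ≤ D ^ 2 * (D * D) := Nat.mul_le_mul_left _ k2
      _ = D ^ 4 := by ring
  have hT4e : T4 = ∅ := by
    by_contra hne
    have : 0 < T4.card := card_pos.2 (nonempty_iff_ne_empty.2 hne)
    have : m ^ 3 * 1 ≤ m ^ 3 * T4.card := Nat.mul_le_mul_left _ this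
    omega
  have hx2' := mem_sdiff.1 hx2
  have hx3' := mem_sdiff.1 hx3
  have hx4' := mem_sdiff.1 hx4
  have hx3A2 := mem_sdiff.1 hx3'.1
  have hx4A3 := mem_sdiff.1 hx4'.1
  have hx4A2 := mem_sdiff.1 hx4A3.1
  have n12 : ¬ H.Adj x1 x2 := fun h => hx2'.2
    (mem_insert_of_mem ((SimpleGraph.mem_neighborFinset H x1 x2).2 h))
  have n13 : ¬ H.Adj x1 x3 := fun h => hx3A2.2
    (mem_insert_of_mem ((SimpleGraph.mem_neighborFinset H x1 x3).2 h))
  have n14 : ¬ H.Adj x1 x4 := fun h => hx4A2.2
    (mem_insert_of_mem ((SimpleGraph.mem_neighborFinset H x1 x4).2 h))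
  have n23 : ¬ H.Adj x2 x3 := fun h => hx3'.2
    (mem_insert_of_mem ((SimpleGraph.mem_neighborFinset H x2 x3).2 h))
  have n24 : ¬ H.Adj x2 x4 := fun h => hx4A3.2
    (mem_insert_of_mem ((SimpleGraph.mem_neighborFinset H x2 x4).2 h))
  have n34 : ¬ H.Adj x3 x4 := fun h => hx4'.2
    (mem_insert_of_mem ((SimpleGraph.mem_neighborFinset H x3 x4).2 h))
  refine ⟨{x1, x2, x3, x4}, x1, by simp, ?_, card_le_four, ?_, ?_⟩
  · intro y hy
    simp only [mem_insert, mem_singleton] at hy
    rcases hy with rfl | rfl | rfl | rfl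
    · exact hx1
    · exact hx2'.1
    · exact hx3A2.1
    · exact hx4A2.1
  · intro y hy z hz hyz
    simp only [mem_insert, mem_singleton] at hy hz
    rcases hy with rfl | rfl | rfl | rfl <;> rcases hz with rfl | rfl | rfl | rfl <;>
      first
      | exact absurd rfl hyz
      | assumption
      | (intro h; have h' := h.symm; contradiction)
  · intro t ht
    by_contra hcon
    push Not at hcon
    have a1 := hcon x1 (by simp)
    have a2 := hcon x2 (by simp)
    have a3 := hcon x3 (by simp)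
    have a4 := hcon x4 (by simp)
    have : t ∈ T4 := by
      rw [hT4, hT3, hT2, hT1]
      simp only [mem_inter, SimpleGraph.mem_neighborFinset]
      exact ⟨⟨⟨⟨ht, a1.symm⟩, a2.symm⟩, a3.symm⟩, a4.symm⟩
    rw [hT4e] at this
    simp at this

theorem greedy (H : SimpleGraph V) [DecidableRel H.Adj] (D m : ℕ)
    (hD : ∀ v, (H.neighborFinset v).card ≤ D) (hm : D ^ 4 < m ^ 3) (t : ℕ) :
    ∀ A T : Finset V, 4 * t + 3 * (D + 1) + m ≤ A.card →
    ∃ B : Fin t → Finset V, (∀ i, (B i).Nonempty) ∧ (∀ i, B i ⊆ A) ∧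
      (∀ i, ∀ x ∈ B i, ∀ y ∈ B i, x ≠ y → ¬ H.Adj x y) ∧
      (∀ i j, i ≠ j → Disjoint (B i) (B j)) ∧
      (∀ i j, i ≠ j → ∃ x ∈ B i, ∃ y ∈ B j, ¬ H.Adj x y) ∧
      (∀ i, ∀ t ∈ T, ∃ x ∈ B i, ¬ H.Adj t x) := by
  induction t with
  | zero =>
    intro A T _
    exact ⟨fun i => i.elim0, fun i => i.elim0, fun i => i.elim0, fun i => i.elim0,
      fun i => i.elim0, fun i => i.elim0, fun i => i.elim0⟩
  | succ t ih =>
    intro A T hA
    obtain ⟨B0, b, hb, hBA, hBc, hBcl, hBT⟩ := greedy_one H D m hD A T (by omega) hm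
    have hc : 4 * t + 3 * (D + 1) + m ≤ (A \ B0).card := by
      have := le_card_sdiff B0 A
      omega
    obtain ⟨B, h1, h2, h3, h4, h5, h6⟩ := ih (A \ B0) (insert b T) hc
    refine ⟨Fin.cons B0 B, ?_, ?_, ?_, ?_, ?_, ?_⟩
    · intro i
      refine Fin.cases ?_ (fun j => ?_) i
      · exact ⟨b, hb⟩
      · exact h1 j
    · intro i
      refine Fin.cases ?_ (fun j => ?_) i
      · exact hBA
      · exact (h2 j).trans sdiff_subset
    · intro i
      refine Fin.cases ?_ (fun j => ?_) i
      · exact hBcl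
      · exact h3 j
    · intro i
      refine Fin.cases ?_ (fun i' => ?_) i
      · intro j
        refine Fin.cases ?_ (fun j' => ?_) j
        · intro h; exact absurd rfl h
        · intro _
          simp only [Fin.cons_zero, Fin.cons_succ]
          rw [disjoint_left]
          intro x hx hx'
          exact (mem_sdiff.1 (h2 j' hx')).2 hx
      · intro j
        refine Fin.cases ?_ (fun j' => ?_) j
        · intro _
          simp only [Fin.cons_zero, Fin.cons_succ]
          rw [disjoint_left]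
          intro x hx' hx
          exact (mem_sdiff.1 (h2 i' hx')).2 hx
        · intro hij
          simp only [Fin.cons_succ]
          exact h4 i' j' (fun h => hij (by rw [h]))
    · intro i
      refine Fin.cases ?_ (fun i' => ?_) i
      · intro j
        refine Fin.cases ?_ (fun j' => ?_) j
        · intro h; exact absurd rfl h
        · intro _
          simp only [Fin.cons_zero, Fin.cons_succ]
          obtain ⟨x, hx, hxb⟩ := h6 j' b (mem_insert_self _ _)
          exact ⟨b, hb, x, hx, hxb⟩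
      · intro j
        refine Fin.cases ?_ (fun j' => ?_) j
        · intro _
          simp only [Fin.cons_zero, Fin.cons_succ]
          obtain ⟨x, hx, hxb⟩ := h6 i' b (mem_insert_self _ _)
          exact ⟨x, hx, b, hb, fun h => hxb h.symm⟩
        · intro hij
          simp only [Fin.cons_succ]
          exact h5 i' j' (fun h => hij (by rw [h]))
    · intro i
      refine Fin.cases ?_ (fun i' => ?_) i
      · exact hBT
      · intro s hs
        exact h6 i' s (mem_insert_of_mem hs)

end Vale.Agent.P060
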