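import Vale.Agent.P060.Core

namespace Vale.Agent.P060

open Finset

theorem cond_real (n d w : ℝ) (hn : 45 ≤ n) (hd0 : 0 ≤ d) (hw : 0 < w) (hd : 45 * d ≤ n)
    (hw2 : 6800 * w ^ 2 ≤ n ^ 3) :
    (4 / 3) * (2 * d + w / ((64 / 3) * w / n)) / n +
      4 * ((64 / 3) * w / n * w / 4) / (n * (n - 1)) ≤ 1 / 8 := by
  have hn0 : 0 < n := by linarith
  have hn1 : 0 < n - 1 := by linarith
  have e1 : w / ((64 / 3) * w / n) = 3 * n / 64 := by
    field_simp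
  have e2 : (4 / 3) * (2 * d + 3 * n / 64) / n = (8 / 3) * (d / n) + 1 / 16 := by
    field_simp
    ring
  have e3 : 4 * ((64 / 3) * w / n * w / 4) / (n * (n - 1)) =
      (64 / 3) * w ^ 2 / (n ^ 2 * (n - 1)) := by
    field_simp
  rw [e1, e2, e3]
  have h1 : d / n ≤ 1 / 45 := by
    rw [div_le_div_iff₀ hn0 (by norm_num)]
    linarith
  have h2 : (64 / 3) * w ^ 2 / (n ^ 2 * (n - 1)) ≤ 64 / 20400 * (45 / 44) := by
    rw [div_le_iff₀ (by positivity)]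
    have h3 : n ^ 3 ≤ (45 / 44) * (n ^ 2 * (n - 1)) := by
      have : 0 ≤ n ^ 2 * (n - 45) := mul_nonneg (sq_nonneg _) (by linarith)
      nlinarith
    nlinarith
  have : (8 / 3) * (1 / 45) + 1 / 16 + 64 / 20400 * (45 / 44) ≤ (1 / 8 : ℝ) := by norm_num
  linarith

theorem cond_real0 (n d : ℝ) (hn : 45 ≤ n) (hd0 : 0 ≤ d) (hd : 45 * d ≤ n) :
    (4 / 3) * (2 * d + 0 / 1) / n + 4 * (1 * 0 / 4) / (n * (n - 1)) ≤ 1 / 8 := by
  have hn0 : 0 < n := by linarith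
  have h1 : d / n ≤ 1 / 45 := by
    rw [div_le_div_iff₀ hn0 (by norm_num)]
    linarith
  have e2 : (4 / 3) * (2 * d + 0 / 1) / n + 4 * (1 * 0 / 4) / (n * (n - 1)) =
      (8 / 3) * (d / n) := by
    simp
    ring
  rw [e2]
  linarith

variable {V : Type*} [Fintype V] [DecidableEq V]

theorem core_nat (H : SimpleGraph V) [DecidableRel H.Adj] (D W : ℕ) (hD1 : 1 ≤ D)
    (hD : ∀ v, (H.neighborFinset v).card ≤ D)
    (hW : ∀ v, ∑ x ∈ H.neighborFinset v, (H.neighborFinset x).card ≤ W)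
    (S R : Finset V) (hSR : Disjoint S R) (N : ℕ) (hR : R.card = 2 * N)
    (hS : ∀ s ∈ S, ∀ s' ∈ S, s ≠ s' → ¬ H.Adj s s')
    (hu : ∀ x ∈ R, ∀ s ∈ S, ∀ s' ∈ S, H.Adj s x → H.Adj s' x → s = s')
    (h1 : 45 * D ≤ N) (h2 : 6800 * W ^ 2 ≤ N ^ 3) :
    HasCliqueMinor Hᶜ (N + S.card) := by
  have hN : 45 ≤ N := by omega
  have hN' : (45 : ℝ) ≤ N := by exact_mod_cast hN
  have h1' : 45 * (D : ℝ) ≤ N := by exact_mod_cast h1
  have h2' : 6800 * (W : ℝ) ^ 2 ≤ (N : ℝ) ^ 3 := by exact_mod_cast h2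
  rcases Nat.eq_zero_or_pos W with hW0 | hW0
  · subst hW0
    refine core H D 0 hD hW S R hSR N (by omega) hR hS hu (K := 1) one_pos ?_
    have := cond_real0 N D hN' (Nat.cast_nonneg _) h1'
    simpa using this
  · have hw : (0 : ℝ) < W := by exact_mod_cast hW0
    refine core H D W hD hW S R hSR N (by omega) hR hS hu (K := (64 / 3) * W / N)
      (by positivity) ?_
    exact cond_real N D W hN' (Nat.cast_nonneg _) hw h1' h2'

end Vale.Agent.P060
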