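import Vale.Agent.P060.Gallai
import Vale.Agent.P060.Threshold

namespace Vale.Agent.P060

open Finset

variable {V : Type*} [Fintype V] [DecidableEq V]

theorem chi_le_iff (G : SimpleGraph V) (X : Finset V) (k : ℕ) :
    chi G X ≤ k ↔ (G.induce (X : Set V)).Colorable k := by
  constructor
  · intro h
    obtain ⟨f, hf, hc⟩ := chi_spec G X
    let C : (G.induce (X : Set V)).Coloring (X.image f) :=
      SimpleGraph.Coloring.mk (fun x => ⟨f x.1, mem_image_of_mem f x.2⟩) (by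
        intro x y hxy h'
        have h1 : G.Adj x.1 y.1 := hxy
        exact hf x.1 x.2 y.1 y.2 h1 (congrArg Subtype.val h'))
    have h2 := C.colorable
    rw [Fintype.card_coe] at h2
    exact h2.mono (hc.trans h)
  · rintro ⟨C⟩
    let f : V → ℕ := fun v => if h : v ∈ X then (C ⟨v, h⟩ : ℕ) else 0
    have hf : Proper G X f := by
      intro x hx y hy hxy h'
      have h1 : (C ⟨x, hx⟩ : ℕ) = (C ⟨y, hy⟩ : ℕ) := by
        have hfx : f x = (C ⟨x, hx⟩ : ℕ) := dif_pos hx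
        have hfy : f y = (C ⟨y, hy⟩ : ℕ) := dif_pos hy
        rw [← hfx, ← hfy]; exact h'
      have h2 : (G.induce (X : Set V)).Adj ⟨x, hx⟩ ⟨y, hy⟩ := hxy
      exact C.valid h2 (Fin.ext h1)
    refine (chi_le hf).trans ?_
    calc (X.image f).card ≤ (range k).card := by
          apply card_le_card
          intro n hn
          obtain ⟨x, hx, rfl⟩ := mem_image.1 hn
          have hfx : f x = (C ⟨x, hx⟩ : ℕ) := dif_pos hx
          rw [hfx, mem_range]
          exact (C ⟨x, hx⟩).2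
      _ = k := card_range k

theorem chi_univ_le_iff (G : SimpleGraph V) (k : ℕ) : chi G univ ≤ k ↔ G.Colorable k := by
  rw [chi_le_iff]
  have e : G.induce ((univ : Finset V) : Set V) ≃g G :=
    { toFun := fun x => x.1
      invFun := fun x => ⟨x, by simp⟩
      left_inv := fun x => rfl
      right_inv := fun x => rfl
      map_rel_iff' := Iff.rfl }
  constructor
  · intro h
    exact h.of_hom e.symm.toHom
  · intro h
    exact h.of_hom e.toHom

theorem chromaticNumber_eq_chi (G : SimpleGraph V) :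
    G.chromaticNumber = (chi G univ : ℕ∞) := by
  apply le_antisymm
  · rw [SimpleGraph.chromaticNumber_le_iff_colorable]
    exact (chi_univ_le_iff G _).1 (le_refl _)
  · have hne : G.chromaticNumber ≠ ⊤ := by
      rw [SimpleGraph.chromaticNumber_ne_top_iff_exists]
      exact ⟨_, (chi_univ_le_iff G _).1 (le_refl _)⟩
    obtain ⟨m, hm⟩ := ENat.ne_top_iff_exists.1 hne
    rw [← hm]
    have : G.Colorable m := by
      rw [← SimpleGraph.chromaticNumber_le_iff_colorable, ← hm]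
    exact_mod_cast (chi_univ_le_iff G m).2 this

def MinorIn (G : SimpleGraph V) (X : Set V) (t : ℕ) : Prop :=
  ∃ B : Fin t → Set V, (∀ i, B i ⊆ X) ∧ (∀ i, (G.induce (B i)).Connected) ∧
    (∀ i j, i ≠ j → Disjoint (B i) (B j)) ∧
    (∀ i j, i ≠ j → ∃ x ∈ B i, ∃ y ∈ B j, G.Adj x y)

omit [Fintype V] [DecidableEq V] in
theorem minorIn_of_induce {G : SimpleGraph V} {X : Set V} {t : ℕ}
    (h : HasCliqueMinor (G.induce X) t) : MinorIn G X t := by
  obtain ⟨B, h1, h2, h3⟩ := h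
  refine ⟨fun i => Subtype.val '' (B i), ?_, ?_, ?_, ?_⟩
  · rintro i _ ⟨x, _, rfl⟩
    exact x.2
  · intro i
    let f : ((G.induce X).induce (B i)) →g (G.induce (Subtype.val '' (B i))) :=
      { toFun := fun x => ⟨x.1.1, ⟨x.1, x.2, rfl⟩⟩
        map_rel' := fun h => h }
    refine (h1 i).map f ?_
    rintro ⟨_, ⟨x, hx, rfl⟩⟩
    exact ⟨⟨x, hx⟩, rfl⟩
  · intro i j hij
    rw [Set.disjoint_left]
    rintro _ ⟨x, hx, rfl⟩ ⟨y, hy, hxy⟩
    have : y = x := Subtype.ext hxy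
    subst this
    exact Set.disjoint_left.1 (h2 i j hij) hx hy
  · intro i j hij
    obtain ⟨x, hx, y, hy, hxy⟩ := h3 i j hij
    exact ⟨x.1, ⟨x, hx, rfl⟩, y.1, ⟨y, hy, rfl⟩, hxy⟩

omit [Fintype V] [DecidableEq V] in
theorem MinorIn.hasCliqueMinor {G : SimpleGraph V} {X : Set V} {t : ℕ}
    (h : MinorIn G X t) : HasCliqueMinor G t := by
  obtain ⟨B, _, h1, h2, h3⟩ := h
  exact ⟨B, h1, h2, h3⟩

omit [Fintype V] [DecidableEq V] in
theorem hasCliqueMinor_join {G : SimpleGraph V} {X Y : Set V} {s t : ℕ}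
    (hX : MinorIn G X s) (hY : MinorIn G Y t) (hXY : Disjoint X Y)
    (hadj : ∀ x ∈ X, ∀ y ∈ Y, G.Adj x y) : HasCliqueMinor G (s + t) := by
  obtain ⟨B, b0, b1, b2, b3⟩ := hX
  obtain ⟨C, c0, c1, c2, c3⟩ := hY
  have hBne : ∀ i, ∃ x, x ∈ B i := fun i => by
    obtain ⟨x⟩ := (b1 i).nonempty
    exact ⟨x.1, x.2⟩
  have hCne : ∀ i, ∃ x, x ∈ C i := fun i => by
    obtain ⟨x⟩ := (c1 i).nonempty
    exact ⟨x.1, x.2⟩
  let E : Fin s ⊕ Fin t → Set V := Sum.elim B C
  refine hasCliqueMinor_of_fintype E ?_ ?_ ?_ ?_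
  · rintro (i | i)
    · exact b1 i
    · exact c1 i
  · rintro (i | i) (j | j) hij
    · exact b2 i j (fun h => hij (by rw [h]))
    · exact hXY.mono (b0 i) (c0 j)
    · exact (hXY.mono (b0 j) (c0 i)).symm
    · exact c2 i j (fun h => hij (by rw [h]))
  · rintro (i | i) (j | j) hij
    · exact b3 i j (fun h => hij (by rw [h]))
    · obtain ⟨x, hx⟩ := hBne i
      obtain ⟨y, hy⟩ := hCne j
      exact ⟨x, hx, y, hy, hadj x (b0 i hx) y (c0 j hy)⟩
    · obtain ⟨x, hx⟩ := hCne i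
      obtain ⟨y, hy⟩ := hBne j
      exact ⟨x, hx, y, hy, (hadj y (b0 j hy) x (c0 i hx)).symm⟩
    · exact c3 i j (fun h => hij (by rw [h]))
  · simp

end Vale.Agent.P060
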