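import Mathlib

namespace Vale.Agent.P060

open Finset

variable {Ω ι : Type*} [Fintype Ω] [DecidableEq Ω] [DecidableEq ι]

def avoid (A : ι → Finset Ω) (S : Finset ι) : Finset Ω :=
  univ.filter (fun ω => ∀ j ∈ S, ω ∉ A j)

omit [DecidableEq ι] in
theorem mem_avoid {A : ι → Finset Ω} {S : Finset ι} {ω : Ω} :
    ω ∈ avoid A S ↔ ∀ j ∈ S, ω ∉ A j := by
  simp [avoid]

theorem avoid_anti {A : ι → Finset Ω} {S T : Finset ι} (h : S ⊆ T) :
    avoid A T ⊆ avoid A S := by
  intro ω hω
  rw [mem_avoid] at hω ⊢
  exact fun j hj => hω j (h hj)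

theorem avoid_diff_subset {A : ι → Finset Ω} {S T : Finset ι} :
    avoid A T \ (S.biUnion (fun j => avoid A T ∩ A j)) ⊆ avoid A (S ∪ T) := by
  intro ω hω
  rw [mem_sdiff, mem_biUnion] at hω
  rw [mem_avoid]
  intro j hj
  rcases mem_union.1 hj with hj | hj
  · intro hc
    exact hω.2 ⟨j, hj, mem_inter.2 ⟨hω.1, hc⟩⟩
  · exact (mem_avoid.1 hω.1) j hj

theorem lll_key (A : ι → Finset Ω) (nb : ι → ι → Prop) [∀ i j, Decidable (nb i j)]
    (p x : ι → ℝ) (all : Finset ι) (hx0 : ∀ i ∈ all, 0 ≤ x i)
    (hlop : ∀ i ∈ all, ∀ S ⊆ all, (∀ j ∈ S, ¬ nb i j) →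
      (((avoid A S) ∩ A i).card : ℝ) ≤ p i * ((avoid A S).card : ℝ))
    (hsum : ∀ i ∈ all, p i ≤ x i * (1 - ∑ j ∈ all.filter (nb i), x j)) :
    ∀ n : ℕ, ∀ S ⊆ all, S.card = n → ∀ i ∈ all,
      (((avoid A S) ∩ A i).card : ℝ) ≤ x i * ((avoid A S).card : ℝ) := by
  intro n
  induction n using Nat.strong_induction_on with
  | _ n ih =>
    intro S hS hn i hi
    set S1 := S.filter (nb i) with hS1
    set S2 := S.filter (fun j => ¬ nb i j) with hS2
    have hS2S : S2 ⊆ S := filter_subset _ _
    have hS12 : S1 ∪ S2 = S := by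
      rw [hS1, hS2]
      exact filter_union_filter_not_eq _ _
    have h1 : (((avoid A S) ∩ A i).card : ℝ) ≤ p i * ((avoid A S2).card : ℝ) := by
      refine le_trans ?_ (hlop i hi S2 (hS2S.trans hS) ?_)
      · exact_mod_cast card_le_card (inter_subset_inter_right (avoid_anti hS2S))
      · intro j hj
        exact (mem_filter.1 hj).2
    have hxi := hx0 i hi
    have hsub : S1 ⊆ all.filter (nb i) := filter_subset_filter _ hS
    have hsumle : ∑ j ∈ S1, x j ≤ ∑ j ∈ all.filter (nb i), x j :=
      sum_le_sum_of_subset_of_nonneg hsub (fun j hj _ => hx0 j (mem_filter.1 hj).1)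
    have h2 : ((avoid A S2).card : ℝ) * (1 - ∑ j ∈ S1, x j) ≤ ((avoid A S).card : ℝ) := by
      by_cases hemp : S1 = ∅
      · rw [hemp] at hS12 ⊢
        rw [empty_union] at hS12
        rw [hS12]
        simp
      · have hlt : S2.card < n := by
          rw [← hn]
          apply card_lt_card
          rw [Finset.ssubset_iff_subset_ne]
          refine ⟨hS2S, ?_⟩
          intro heq
          obtain ⟨j, hj⟩ := nonempty_iff_ne_empty.2 hemp
          have hj' := mem_filter.1 hj
          have : j ∈ S2 := heq ▸ hj'.1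
          exact (mem_filter.1 this).2 hj'.2
        have hb : (S1.biUnion (fun j => avoid A S2 ∩ A j)).card ≤
            ∑ j ∈ S1, (avoid A S2 ∩ A j).card := card_biUnion_le
        have hb' : ((S1.biUnion (fun j => avoid A S2 ∩ A j)).card : ℝ) ≤
            ∑ j ∈ S1, x j * ((avoid A S2).card : ℝ) := by
          have hb2 : ((S1.biUnion (fun j => avoid A S2 ∩ A j)).card : ℝ) ≤
              ∑ j ∈ S1, ((avoid A S2 ∩ A j).card : ℝ) := by exact_mod_cast hb
          refine le_trans hb2 ?_
          apply sum_le_sum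
          intro j hj
          exact ih S2.card hlt S2 (hS2S.trans hS) rfl j (hS (mem_filter.1 hj).1)
        have hc : (avoid A S2).card ≤ (avoid A S).card +
            (S1.biUnion (fun j => avoid A S2 ∩ A j)).card := by
          have h3 := card_le_card (avoid_diff_subset (A := A) (S := S1) (T := S2))
          rw [hS12] at h3
          have h4 := le_card_sdiff (S1.biUnion (fun j => avoid A S2 ∩ A j)) (avoid A S2)
          omega
        have hc' : ((avoid A S2).card : ℝ) ≤ (avoid A S).card +
            ((S1.biUnion (fun j => avoid A S2 ∩ A j)).card : ℝ) := by exact_mod_cast hc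
        rw [← sum_mul] at hb'
        nlinarith [hb', hc']
    calc (((avoid A S) ∩ A i).card : ℝ) ≤ p i * ((avoid A S2).card : ℝ) := h1
      _ ≤ (x i * (1 - ∑ j ∈ all.filter (nb i), x j)) * ((avoid A S2).card : ℝ) := by
          apply mul_le_mul_of_nonneg_right (hsum i hi) (Nat.cast_nonneg _)
      _ ≤ (x i * (1 - ∑ j ∈ S1, x j)) * ((avoid A S2).card : ℝ) := by
          apply mul_le_mul_of_nonneg_right _ (Nat.cast_nonneg _)
          apply mul_le_mul_of_nonneg_left _ hxi
          linarith
      _ = x i * (((avoid A S2).card : ℝ) * (1 - ∑ j ∈ S1, x j)) := by ring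
      _ ≤ x i * ((avoid A S).card : ℝ) := mul_le_mul_of_nonneg_left h2 hxi

theorem lll (A : ι → Finset Ω) (nb : ι → ι → Prop) [∀ i j, Decidable (nb i j)]
    (p x : ι → ℝ) (all : Finset ι) (hx0 : ∀ i ∈ all, 0 ≤ x i) (hx1 : ∀ i ∈ all, x i < 1)
    (hlop : ∀ i ∈ all, ∀ S ⊆ all, (∀ j ∈ S, ¬ nb i j) →
      (((avoid A S) ∩ A i).card : ℝ) ≤ p i * ((avoid A S).card : ℝ))
    (hsum : ∀ i ∈ all, p i ≤ x i * (1 - ∑ j ∈ all.filter (nb i), x j)) [Nonempty Ω] :
    (avoid A all).Nonempty := by
  have key := lll_key A nb p x all hx0 hlop hsum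
  have main : ∀ S : Finset ι, S ⊆ all → 0 < ((avoid A S).card : ℝ) := by
    intro S
    induction S using Finset.induction_on with
    | empty =>
      intro _
      have : avoid A (∅ : Finset ι) = univ := by
        ext ω; simp [avoid]
      rw [this]
      exact_mod_cast card_pos.2 univ_nonempty
    | insert i S hi ih =>
      intro hS
      have hS' : S ⊆ all := (subset_insert i S).trans hS
      have hi' : i ∈ all := hS (mem_insert_self i S)
      have h1 := ih hS'
      have h2 := key S.card S hS' rfl i hi'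
      have h3 : avoid A S ⊆ avoid A (insert i S) ∪ (avoid A S ∩ A i) := by
        intro ω hω
        by_cases h : ω ∈ A i
        · exact mem_union_right _ (mem_inter.2 ⟨hω, h⟩)
        · apply mem_union_left
          rw [mem_avoid] at hω ⊢
          intro j hj
          rcases mem_insert.1 hj with rfl | hj
          · exact h
          · exact hω j hj
      have h4 : (avoid A S).card ≤ (avoid A (insert i S)).card + (avoid A S ∩ A i).card :=
        (card_le_card h3).trans (card_union_le _ _)
      have h5 : ((avoid A S).card : ℝ) ≤ (avoid A (insert i S)).card + (avoid A S ∩ A i).card := by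
        exact_mod_cast h4
      have h6 := hx1 i hi'
      nlinarith
  have := main all (Subset.refl _)
  exact card_pos.1 (by exact_mod_cast this)

end Vale.Agent.P060
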