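import Vale.Agent.P060.Link

namespace Vale.Agent.P060

open Finset

variable {V : Type*} [Fintype V] [DecidableEq V]

theorem complete_minor {G : SimpleGraph V} (h : ∀ x y, x ≠ y → G.Adj x y) :
    HasCliqueMinor G (Fintype.card V) := by
  refine hasCliqueMinor_of_fintype (fun v : V => ({v} : Set V)) ?_ ?_ ?_ rfl
  · intro v
    exact induce_singleton_connected v
  · intro x y hxy
    rw [Set.disjoint_left]
    intro z hz hz'
    exact hxy ((hz : z = x).symm.trans hz')
  · intro x y hxy
    exact ⟨x, rfl, y, rfl, h x y hxy⟩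

theorem complete_of_degree_zero {G : SimpleGraph V} [DecidableRel G.Adj]
    (hD : ∀ v, Gᶜ.degree v ≤ 0) (x y : V) (hxy : x ≠ y) : G.Adj x y := by
  by_contra h
  have h1 : Gᶜ.Adj x y := by
    rw [SimpleGraph.compl_adj]
    exact ⟨hxy, h⟩
  have h2 : y ∈ Gᶜ.neighborFinset x := by
    rw [SimpleGraph.mem_neighborFinset]
    exact h1
  have h3 := card_pos.2 ⟨y, h2⟩
  rw [SimpleGraph.card_neighborFinset_eq_degree] at h3
  have := hD x
  omega

theorem half_minor (G : SimpleGraph V) [DecidableRel G.Adj] (D W : ℕ)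
    (hD : ∀ v, Gᶜ.degree v ≤ D)
    (hW : ∀ v, ∑ x ∈ Gᶜ.neighborFinset v, Gᶜ.degree x ≤ W)
    (h1 : 100 * D ≤ Fintype.card V) (h2 : 60000 * W ^ 2 ≤ (Fintype.card V) ^ 3) :
    HasCliqueMinor G ((Fintype.card V + 1) / 2) := by
  set n := Fintype.card V with hn
  rcases Nat.eq_zero_or_pos D with hD0 | hD0
  · subst hD0
    refine (complete_minor (complete_of_degree_zero hD)).mono ?_
    omega
  · have hn100 : 100 ≤ n := by omega
    obtain ⟨N, hN⟩ : ∃ N, N = n / 2 := ⟨_, rfl⟩
    have hN1 : 2 * N ≤ n := by omega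
    have hN2 : n ≤ 2 * N + 1 := by omega
    have hN50 : 50 ≤ N := by omega
    have hDN : 45 * D ≤ N := by omega
    have hWN : 6800 * W ^ 2 ≤ N ^ 3 := by
      have e1 : 50 * n ≤ 101 * N := by omega
      have e2 : (50 * n) ^ 3 ≤ (101 * N) ^ 3 := Nat.pow_le_pow_left e1 3
      have e3 : 125000 * n ^ 3 ≤ 1030301 * N ^ 3 := by
        calc 125000 * n ^ 3 = (50 * n) ^ 3 := by ring
          _ ≤ (101 * N) ^ 3 := e2
          _ = 1030301 * N ^ 3 := by ring
      omega
    have hGG : Gᶜᶜ = G := compl_compl G
    rcases Nat.even_or_odd n with hev | hodd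
    · have hcard : (univ : Finset V).card = 2 * N := by
        rw [card_univ, ← hn]
        obtain ⟨m, hm⟩ := hev
        omega
      have := core_nat Gᶜ D W hD0 hD hW ∅ univ (disjoint_empty_left _) N hcard
        (by simp) (by simp) hDN hWN
      rw [hGG, card_empty, add_zero] at this
      refine this.mono ?_
      obtain ⟨m, hm⟩ := hev
      omega
    · obtain ⟨m, hm⟩ := hodd
      have hpos : 0 < Fintype.card V := by omega
      obtain ⟨v⟩ := Fintype.card_pos_iff.1 hpos
      have hcard : ((univ : Finset V).erase v).card = 2 * N := by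
        rw [card_erase_of_mem (mem_univ v), card_univ, ← hn]
        omega
      have hd : Disjoint ({v} : Finset V) ((univ : Finset V).erase v) := by
        rw [disjoint_singleton_left]
        exact notMem_erase v _
      have := core_nat Gᶜ D W hD0 hD hW {v} ((univ : Finset V).erase v) hd N hcard
        (by
          intro s hs s' hs' hne
          rw [mem_singleton] at hs hs'
          exact absurd (hs.trans hs'.symm) hne)
        (by
          intro x _ s hs s' hs' _ _
          rw [mem_singleton] at hs hs'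
          exact hs.trans hs'.symm) hDN hWN
      rw [hGG, card_singleton] at this
      refine this.mono ?_
      omega

theorem gap_minor (G : SimpleGraph V) [DecidableRel G.Adj] (D W k : ℕ)
    (hD : ∀ v, Gᶜ.degree v ≤ D)
    (hW : ∀ v, ∑ x ∈ Gᶜ.neighborFinset v, Gᶜ.degree x ≤ W)
    (h1 : 45 * D ≤ k) (h2 : 6800 * W ^ 2 ≤ k ^ 3)
    (hk : G.cliqueNum + k ≤ chi G univ) :
    HasCliqueMinor G (chi G univ) := by
  rcases Nat.eq_zero_or_pos D with hD0 | hD0
  · subst hD0
    refine (complete_minor (complete_of_degree_zero hD)).mono ?_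
    refine (chi_le (f := fun v => (Fintype.equivFin V v : ℕ)) ?_).trans ?_
    · intro x _ y _ hxy h
      have h' : Fintype.equivFin V x = Fintype.equivFin V y := Fin.ext h
      exact hxy.ne ((Fintype.equivFin V).injective h')
    · exact card_image_le.trans (le_of_eq card_univ)
  · obtain ⟨⟨U, F, hg, hle⟩, _⟩ := gallai_aux G _ univ rfl
    classical
    have hGG : Gᶜᶜ = G := compl_compl G
    let r : Finset V → V := fun C => if h : C.Nonempty then h.choose else
      (Classical.choice (by
        by_contra hemp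
        rw [not_nonempty_iff] at hemp
        have : Fintype.card V = 0 := Fintype.card_eq_zero
        have h3 : chi G univ = 0 := by
          have : (univ : Finset V) = ∅ := by
            rw [← card_eq_zero, card_univ]; exact this
          rw [this, chi_empty]
        omega))
    have hr : ∀ C ∈ F, r C ∈ C := by
      intro C hC
      have hne := hg.hne C hC
      show (if h : C.Nonempty then h.choose else _) ∈ C
      rw [dif_pos hne]
      exact hne.choose_spec
    have hinj : Set.InjOn r F := by
      intro C hC C' hC' h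
      by_contra hne
      exact disjoint_left.1 (hg.hdisj C hC C' hC' hne) (hr C hC) (h ▸ hr C' hC')
    obtain ⟨S, hS⟩ : ∃ S, S = F.image r := ⟨_, rfl⟩
    have hScard : S.card = F.card := by rw [hS]; exact card_image_of_injOn hinj
    have hSU : S ⊆ univ \ U := by
      intro s hs
      rw [hS] at hs
      obtain ⟨C, hC, rfl⟩ := mem_image.1 hs
      exact hg.hsub C hC (hr C hC)
    have hadj : ∀ s ∈ S, ∀ s' ∈ S, s ≠ s' → G.Adj s s' := by
      intro s hs s' hs' hne
      rw [hS] at hs hs'
      obtain ⟨C, hC, rfl⟩ := mem_image.1 hs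
      obtain ⟨C', hC', rfl⟩ := mem_image.1 hs'
      have hCC : C ≠ C' := fun h => hne (by rw [h])
      apply hg.hcomp C hC _ (hr C hC)
      rw [mem_sdiff]
      refine ⟨hg.hsub C' hC' (hr C' hC'), ?_⟩
      intro h
      exact disjoint_left.1 (hg.hdisj C hC C' hC' hCC) h (hr C' hC')
    have hclique : S.card ≤ G.cliqueNum := by
      apply SimpleGraph.IsClique.card_le_cliqueNum
      intro s hs s' hs' hne
      exact hadj s hs s' hs' hne
    obtain ⟨R0, hR0⟩ : ∃ R0, R0 = (univ \ U) \ S := ⟨_, rfl⟩
    have hR0card : R0.card + S.card + U.card = Fintype.card V := by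
      rw [hR0, card_sdiff_of_subset hSU, card_sdiff_of_subset (subset_univ U), card_univ]
      have e1 := card_le_card hSU
      rw [card_sdiff_of_subset (subset_univ U), card_univ] at e1
      have e2 := card_le_card (subset_univ U)
      rw [card_univ] at e2
      omega
    obtain ⟨N, hN⟩ : ∃ N, N = R0.card / 2 := ⟨_, rfl⟩
    obtain ⟨R, hRR0, hR⟩ := exists_subset_card_eq (s := R0) (n := 2 * N) (by omega)
    have hchi : chi G univ ≤ N + S.card := by
      rw [card_univ] at hle
      omega
    have hNk : k ≤ N := by omega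
    have hSR : Disjoint S R := by
      rw [disjoint_left]
      intro x hx hx'
      have := hRR0 hx'
      rw [hR0, mem_sdiff] at this
      exact this.2 hx
    have := core_nat Gᶜ D W hD0 hD hW S R hSR N hR
      (by
        intro s hs s' hs' hne h
        rw [SimpleGraph.compl_adj] at h
        exact h.2 (hadj s hs s' hs' hne))
      (by
        intro x hx s hs s' hs' h h'
        rw [SimpleGraph.compl_adj] at h h'
        have hx0 := hRR0 hx
        rw [hR0, mem_sdiff] at hx0
        rw [hS] at hs hs'
        obtain ⟨C, hC, rfl⟩ := mem_image.1 hs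
        obtain ⟨C', hC', rfl⟩ := mem_image.1 hs'
        have hxC : x ∈ C := by
          by_contra hxC
          exact h.2 (hg.hcomp C hC _ (hr C hC) x (mem_sdiff.2 ⟨hx0.1, hxC⟩))
        have hxC' : x ∈ C' := by
          by_contra hxC
          exact h'.2 (hg.hcomp C' hC' _ (hr C' hC') x (mem_sdiff.2 ⟨hx0.1, hxC⟩))
        by_contra hne
        have hCC : C ≠ C' := fun h => hne (by rw [h])
        exact disjoint_left.1 (hg.hdisj C hC C' hC' hCC) hxC hxC')
      (h1.trans hNk) (h2.trans (Nat.pow_le_pow_left hNk 3))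
    rw [hGG] at this
    exact this.mono hchi

theorem minimal_minor (G : SimpleGraph V) [DecidableRel G.Adj] (D W : ℕ)
    (hD : ∀ v, Gᶜ.degree v ≤ D)
    (hW : ∀ v, ∑ x ∈ Gᶜ.neighborFinset v, Gᶜ.degree x ≤ W)
    (h1 : 100 * D ≤ Fintype.card V) (h2 : 60000 * W ^ 2 ≤ (Fintype.card V) ^ 3)
    (hmin : ∀ X : Set V, X ≠ Set.univ →
      (G.induce X).chromaticNumber ≤ (hadwigerNumber (G.induce X) : ℕ∞)) :
    HasCliqueMinor G (chi G univ) := by
  classical
  have key : ∀ X : Finset V, X ≠ univ → MinorIn G X (chi G X) := by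
    intro X hX
    have h3 := hmin X (fun h => hX (coe_injective (h.trans coe_univ.symm)))
    have h4 : (G.induce (X : Set V)).Colorable (hadwigerNumber (G.induce (X : Set V))) := by
      rw [← SimpleGraph.chromaticNumber_le_iff_colorable]
      exact h3
    have h5 := (chi_le_iff G X _).2 h4
    exact minorIn_of_induce ((hasCliqueMinor_hadwigerNumber _).mono h5)
  by_cases hne : (univ : Finset V).Nonempty
  swap
  · rw [not_nonempty_iff_eq_empty] at hne
    rw [hne, chi_empty]
    exact hasCliqueMinor_zero G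
  by_cases hcrit : Crit G univ
  swap
  · unfold Crit at hcrit
    push Not at hcrit
    obtain ⟨v, hv, hle⟩ := hcrit
    have hX : (univ : Finset V).erase v ≠ univ := by
      intro h
      have h' : v ∈ (univ : Finset V).erase v := by rw [h]; exact mem_univ v
      exact notMem_erase v univ h'
    exact (key _ hX).hasCliqueMinor.mono hle
  by_cases hconn : CoConn G univ
  · have h3 := (gallai_aux G _ univ rfl).2 hne hcrit hconn
    refine (half_minor G D W hD hW h1 h2).mono ?_
    rw [card_univ] at h3
    omega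
  · unfold CoConn at hconn
    push Not at hconn
    obtain ⟨C, _, hCne, hCneX, hCadj⟩ := hconn
    have hX2 : (univ : Finset V) \ C ≠ univ := by
      obtain ⟨x, hx⟩ := hCne
      intro h
      have := h ▸ mem_univ x
      exact (mem_sdiff.1 this).2 hx
    have h3 := chi_union_le G C (univ \ C)
    rw [union_sdiff_of_subset (subset_univ C)] at h3
    refine (hasCliqueMinor_join (key C hCneX) (key _ hX2) ?_ ?_).mono h3
    · rw [Set.disjoint_left]
      intro x hx hx'
      exact (mem_sdiff.1 (mem_coe.1 hx')).2 (mem_coe.1 hx)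
    · intro x hx y hy
      exact hCadj x (mem_coe.1 hx) y (mem_coe.1 hy)

theorem main (G : SimpleGraph V) [DecidableRel G.Adj] (D W : ℕ)
    (hD : ∀ v, Gᶜ.degree v ≤ D)
    (hW : ∀ v, ∑ x ∈ Gᶜ.neighborFinset v, Gᶜ.degree x ≤ W) :
    (∀ k : ℕ, 45 * D ≤ k → 6800 * W ^ 2 ≤ k ^ 3 →
      (G.cliqueNum : ℕ∞) + k ≤ G.chromaticNumber →
      G.chromaticNumber ≤ (hadwigerNumber G : ℕ∞)) ∧
    (100 * D ≤ Fintype.card V → 60000 * W ^ 2 ≤ (Fintype.card V) ^ 3 →
      (Fintype.card V + 1) / 2 ≤ hadwigerNumber G ∧
      ((∀ X : Set V, X ≠ Set.univ →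
        (G.induce X).chromaticNumber ≤ (hadwigerNumber (G.induce X) : ℕ∞)) →
        G.chromaticNumber ≤ (hadwigerNumber G : ℕ∞))) := by
  refine ⟨?_, ?_⟩
  · intro k h1 h2 hk
    rw [chromaticNumber_eq_chi] at hk ⊢
    have hk' : G.cliqueNum + k ≤ chi G univ := by exact_mod_cast hk
    exact_mod_cast le_hadwigerNumber (gap_minor G D W k hD hW h1 h2 hk')
  · intro h1 h2
    refine ⟨le_hadwigerNumber (half_minor G D W hD hW h1 h2), ?_⟩
    intro hmin
    rw [chromaticNumber_eq_chi]
    exact_mod_cast le_hadwigerNumber (minimal_minor G D W hD hW h1 h2 hmin)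

end Vale.Agent.P060
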