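import Vale.Agent.P060.LocalLemma

namespace Vale.Agent.P060

open Finset Equiv

abbrev Ev (N : ℕ) := (Fin N × Fin N) ⊕ ((Fin N × Fin N) × (Fin N × Fin N))

def evSet {N : ℕ} : Ev N → Finset (Perm (Fin N))
  | Sum.inl c => univ.filter (fun π => π c.1 = c.2)
  | Sum.inr d => univ.filter (fun π => π d.1.1 = d.1.2 ∧ π d.2.1 = d.2.2)

def evRows {N : ℕ} : Ev N → Finset (Fin N)
  | Sum.inl c => {c.1}
  | Sum.inr d => {d.1.1, d.2.1}

def evCols {N : ℕ} : Ev N → Finset (Fin N)
  | Sum.inl c => {c.2}
  | Sum.inr d => {d.1.2, d.2.2}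

def evNb {N : ℕ} (e e' : Ev N) : Prop :=
  ¬ (Disjoint (evRows e) (evRows e') ∧ Disjoint (evCols e) (evCols e'))

instance {N : ℕ} (e e' : Ev N) : Decidable (evNb e e') := by
  unfold evNb; infer_instance

theorem swap_cell {N : ℕ} {π : Perm (Fin N)} {a b b' r c : Fin N} (hab : π a = b)
    (hr : r ≠ a) (hc : c ≠ b) (h : (swap b b' * π) r = c) : π r = c := by
  rw [Perm.mul_apply] at h
  have h2 : π r = swap b b' c := by
    rw [← h, swap_apply_self]
  by_cases hcb : c = b'
  · exfalso
    rw [hcb, swap_apply_right] at h2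
    exact hr (π.injective (h2.trans hab.symm))
  · rw [swap_apply_of_ne_of_ne hc hcb] at h2
    exact h2

theorem mem_evSet_of_swap {N : ℕ} {π : Perm (Fin N)} {a b b' : Fin N} {e : Ev N} (hab : π a = b)
    (hr : a ∉ evRows e) (hc : b ∉ evCols e) (h : (swap b b' * π) ∈ evSet e) : π ∈ evSet e := by
  rcases e with c | d
  · simp only [evSet, mem_filter, mem_univ, true_and, evRows, evCols, mem_singleton] at *
    exact swap_cell hab (fun h' => hr h'.symm) (fun h' => hc h'.symm) h
  · simp only [evSet, mem_filter, mem_univ, true_and, evRows, evCols, mem_insert, mem_singleton,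
      not_or] at *
    exact ⟨swap_cell hab (fun h' => hr.1 h'.symm) (fun h' => hc.1 h'.symm) h.1,
      swap_cell hab (fun h' => hr.2 h'.symm) (fun h' => hc.2 h'.symm) h.2⟩

theorem card_le_of_mul {N : ℕ} {T T' : Finset (Perm (Fin N))} (σ : Perm (Fin N))
    (h : ∀ π ∈ T, σ * π ∈ T') : T.card ≤ T'.card :=
  card_le_card_of_injOn (fun π => σ * π) h (fun _ _ _ _ h' => mul_left_cancel h')

theorem avoid_swap {N : ℕ} {S : Finset (Ev N)} {π : Perm (Fin N)} {a b b' : Fin N}
    (hab : π a = b) (hr : ∀ e ∈ S, a ∉ evRows e) (hc : ∀ e ∈ S, b ∉ evCols e)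
    (h : π ∈ avoid evSet S) : (swap b b' * π) ∈ avoid evSet S := by
  rw [mem_avoid] at h ⊢
  intro e he hmem
  exact h e he (mem_evSet_of_swap hab (hr e he) (hc e he) hmem)

theorem one_cell {N : ℕ} (S : Finset (Ev N)) (a b : Fin N)
    (hr : ∀ e ∈ S, a ∉ evRows e) (hc : ∀ e ∈ S, b ∉ evCols e) :
    N * ((avoid evSet S).filter (fun π => π a = b)).card ≤ (avoid evSet S).card := by
  have h1 : ∀ b' : Fin N, ((avoid evSet S).filter (fun π => π a = b)).card ≤
      ((avoid evSet S).filter (fun π => π a = b')).card := by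
    intro b'
    apply card_le_of_mul (swap b b')
    intro π hπ
    rw [mem_filter] at hπ ⊢
    refine ⟨avoid_swap hπ.2 hr hc hπ.1, ?_⟩
    rw [Perm.mul_apply, hπ.2, swap_apply_left]
  calc N * ((avoid evSet S).filter (fun π => π a = b)).card
      = ∑ _b' : Fin N, ((avoid evSet S).filter (fun π => π a = b)).card := by
        rw [sum_const, card_univ, Fintype.card_fin, smul_eq_mul]
    _ ≤ ∑ b' : Fin N, ((avoid evSet S).filter (fun π => π a = b')).card :=
        sum_le_sum (fun b' _ => h1 b')
    _ = (avoid evSet S).card := by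
        rw [card_eq_sum_card_fiberwise (f := fun π : Perm (Fin N) => π a) (t := univ)]
        intro π _; exact mem_univ _

theorem two_cell {N : ℕ} (S : Finset (Ev N)) (a b x y : Fin N) (hax : a ≠ x) (hby : b ≠ y)
    (hra : ∀ e ∈ S, a ∉ evRows e) (hcb : ∀ e ∈ S, b ∉ evCols e)
    (hrx : ∀ e ∈ S, x ∉ evRows e) (hcy : ∀ e ∈ S, y ∉ evCols e) :
    N * ((N - 1) * ((avoid evSet S).filter (fun π => π a = b ∧ π x = y)).card) ≤
      (avoid evSet S).card := by
  have h1 : ∀ y' ∈ (univ : Finset (Fin N)).erase b,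
      ((avoid evSet S).filter (fun π => π a = b ∧ π x = y)).card ≤
      (((avoid evSet S).filter (fun π => π a = b)).filter (fun π => π x = y')).card := by
    intro y' hy'
    have hy'b : y' ≠ b := ne_of_mem_erase hy'
    apply card_le_of_mul (swap y y')
    intro π hπ
    rw [mem_filter] at hπ
    rw [mem_filter, mem_filter]
    refine ⟨⟨avoid_swap hπ.2.2 hrx hcy hπ.1, ?_⟩, ?_⟩
    · rw [Perm.mul_apply, hπ.2.1, swap_apply_of_ne_of_ne hby hy'b.symm]
    · rw [Perm.mul_apply, hπ.2.2, swap_apply_left]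
  have h2 : (N - 1) * ((avoid evSet S).filter (fun π => π a = b ∧ π x = y)).card ≤
      ((avoid evSet S).filter (fun π => π a = b)).card := by
    calc (N - 1) * ((avoid evSet S).filter (fun π => π a = b ∧ π x = y)).card
        = ∑ _y' ∈ (univ : Finset (Fin N)).erase b,
            ((avoid evSet S).filter (fun π => π a = b ∧ π x = y)).card := by
          rw [sum_const, card_erase_of_mem (mem_univ _), card_univ, Fintype.card_fin, smul_eq_mul]
      _ ≤ ∑ y' ∈ (univ : Finset (Fin N)).erase b,
            (((avoid evSet S).filter (fun π => π a = b)).filter (fun π => π x = y')).card :=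
          sum_le_sum h1
      _ = ((avoid evSet S).filter (fun π => π a = b)).card := by
          rw [card_eq_sum_card_fiberwise (f := fun π : Perm (Fin N) => π x)
            (t := (univ : Finset (Fin N)).erase b)]
          intro π hπ
          have hπ' := (mem_filter.1 hπ).2
          rw [mem_coe, mem_erase]
          refine ⟨?_, mem_univ _⟩
          intro h
          have h' : π x = b := h
          exact hax (π.injective (hπ'.trans h'.symm))
  exact (Nat.mul_le_mul_left N h2).trans (one_cell S a b hra hcb)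

end Vale.Agent.P060
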